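import Vale.Agent.P146.H376.BaseQ

/-!
The bracket for the layer under the window, for a nested weight.
-/

open MeasureTheory ProbabilityTheory

namespace Vale.Agent.P146.H376

open Vale.Agent.P157.Lv Vale.Agent.P146.H425 Vale.Agent.P146.R1 Vale.Agent.P146.H767
open Vale.Agent.P146.H785 (Ax)

set_option linter.unusedSectionVars false

/-- `V` is almost self averaging for the base densities of relative entropy at most `K`: upper
half. -/
def SAup {κ : Type} [Fintype κ] (K e : ℝ) (V : (κ → ℝ) → ℝ) : Prop :=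
  ∀ q : (κ → ℝ) → ℝ, EG q → (∀ z, 0 ≤ q z) → ∫ z, q z ∂(gI κ) = 1 →
    Integrable (fun z => q z * Real.log (q z)) (gI κ) →
    ∫ z, q z * Real.log (q z) ∂(gI κ) ≤ K → ∫ z, q z * V z ∂(gI κ) ≤ ∫ z, V z ∂(gI κ) + e

/-- `V` is almost self averaging for the base densities of relative entropy at most `K`: lower
half. -/
def SAlow {κ : Type} [Fintype κ] (K e : ℝ) (V : (κ → ℝ) → ℝ) : Prop :=
  ∀ q : (κ → ℝ) → ℝ, EG q → (∀ z, 0 ≤ q z) → ∫ z, q z ∂(gI κ) = 1 →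
    Integrable (fun z => q z * Real.log (q z)) (gI κ) →
    ∫ z, q z * Real.log (q z) ∂(gI κ) ≤ K → ∫ z, V z ∂(gI κ) - e ≤ ∫ z, q z * V z ∂(gI κ)

section gen

variable {κ : Type} [Fintype κ] [DecidableEq κ] {ι : Type*} {P : Finset ι}
  {α T : ι → (κ → ℝ) → ℝ} {t0 M : ℝ} {F : (κ → ℝ) → ℝ} {D : κ → (κ → ℝ) → ℝ}
  {B L x y s τ : ℝ}

/-- **The bracket for a nested weight.** -/
theorem bracket_nm (h : C11 F D B L) (hc : Cv F) (hy : 0 < y) (hyx : y ≤ x) (hτ : 0 ≤ τ)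
    (hs : 0 < s) (h1 : s + τ < 1) (hα : ∀ p ∈ P, EG (α p)) (hT : ∀ p ∈ P, EG (T p))
    (h0 : 0 ≤ t0) (h2 : t0 ≤ 1 - (s + τ)) (hp : ∀ v z, 0 ≤ ∑ p ∈ P, α p v * T p z)
    (hM : ∀ v z, ∑ p ∈ P, α p v * T p z ≤ M) {A : ℝ}
    (hA : A = nm P α T t0 (1 - (s + τ)) (fun _ => 1)) (hA0 : 0 < A) {e1 e2 : ℝ}
    (hup : SAup (Real.log (M / A)) e1 fun z => V2 x τ x s F (√(1 - (s + τ)) • z))
    (hlow : SAlow (Real.log (M / A)) e2 fun z => V0 τ x s F (√(1 - (s + τ)) • z))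
    (hconc : s * DD x (s + τ) F ≤ (s + τ) * DD x s F) :
    (x - y) / 2 * (τ * nm P α T t0 (1 - (s + τ)) (S2 y τ x s F D)) ≤
      A * (τ / s * DD x s F + e1 + e2) := by
  obtain ⟨q, eq, q0, -, q1, iq, hK, key⟩ := base_density hα hT h0 h2 (by linarith) hp hM hA hA0
  have hb := bracket (D := D) h hc hy hyx hτ hs h1.le eq q0 (hup q eq q0 q1 iq hK)
    (hlow q eq q0 q1 iq hK) hconc
  rw [key _ (eg_S2 h (hy.trans_le hyx) hy τ s)]
  have := mul_le_mul_of_nonneg_left hb hA0.le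
  refine le_trans (le_of_eq ?_) this
  ring

end gen

end Vale.Agent.P146.H376
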