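import Vale.Agent.P146.H95.R2Spec
import Vale.Agent.P146.H376.BrkN
import Vale.Agent.P146.H522.SkDic

/-!
The upper bracket of the layer under the window in the numbers `nR`, `nA` of the two-layer law.
-/

open MeasureTheory ProbabilityTheory

namespace Vale.Agent.P146.H376

open Vale.Agent.P157.Lv Vale.Agent.P146.H425 Vale.Agent.P146.H325 Vale.Agent.P146.H332
  Vale.Agent.P146.H712 Vale.Agent.P146.H816 Vale.Agent.P146.R1 Vale.Agent.P146.R1C Matrix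
  Vale.Agent.P146.R1S Vale.Agent.P146.H693 Vale.Agent.P146.H767 Vale.Agent.P146.H95.R2
open Vale.Agent.P146.H785 (Ax)

set_option linter.unusedSectionVars false

lemma sym_sum {n : ℕ} {M : Fin n → Fin n → ℝ} (hM : ∀ i j, M i j = M j i)
    (h1 : ∀ i, M i i = 1) : ∑ i, ∑ j, M i j ^ 2 = n + 2 * ∑ e : Pair n, M e.1.1 e.1.2 ^ 2 := by
  have h1' := sum_pairs (fun i j : Fin n => if i = j then 0 else M i j ^ 2)
    (fun p q => by rw [hM p q]; simp only [eq_comm]) (fun p => by simp)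
  have h2 : ∀ e : Pair n, (if e.1.1 = e.1.2 then (0 : ℝ) else M e.1.1 e.1.2 ^ 2) =
      M e.1.1 e.1.2 ^ 2 := fun e => by rw [if_neg e.2.ne]
  simp only [h2] at h1'
  have h3 : ∑ i, ∑ j, M i j ^ 2 = ∑ i : Fin n, ∑ j : Fin n, ((if i = j then (1 : ℝ) else 0) +
      (if i = j then 0 else M i j ^ 2)) := by
    refine Finset.sum_congr rfl fun i _ => Finset.sum_congr rfl fun j _ => ?_
    split_ifs with h
    · rw [h, h1]; norm_num
    · rw [zero_add]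
  rw [h3]
  simp only [Finset.sum_add_distrib]
  rw [h1']
  simp

section cs

variable {n : ℕ} {k x : ℝ} (S : CS n k x) {y t0 ta tw t2 : ℝ}

omit S in
lemma Pm3 (hx : 0 < x) (hy : 0 < y) (l : ℕ) (hl : l ≤ 3) :
    Pm (Tw.m ⟨x, y, t0, ta, tw, t2⟩) l := by
  intro j hj
  have : j < 2 := by omega
  interval_cases j
  · exact hx
  · exact hy

/-- the gradient of the value function at the start of the layer -/
lemma grad_eq (h1 : tw ≤ t2) (h2 : t2 ≤ 1) (e : Pair n) (z : Pair n → ℝ) :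
    Ax y (√(tw - ta)) (uu x tw S.F) (dd x tw S.F S.D e) z =
      k * Cl S t2 (Tw.m ⟨x, y, t0, ta, tw, t2⟩) (Tw.σ ⟨x, y, t0, ta, tw, t2⟩) 2
        e.1.1 e.1.2 z := by
  have e1 : uu x tw S.F = W x (√(t2 - tw)) (uu x t2 S.F) := funext fun z => uu_tw S h1 h2 z
  have e2 : dd x tw S.F S.D e = fun u => k * Ax x (√(t2 - tw)) (uu x t2 S.F)
      (fun u => S.A t2 u e.1.1 e.1.2) u := by
    funext u
    rw [S.dd_eq, A_tw S h1 h2]
    rfl
  rw [e1, e2, H785.Ax_const_mul]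
  rfl

/-- **The squared gradient at the start of the layer.** -/
theorem S2_eq {s τ : ℝ} (hs : tw = 1 - s) (hτ : τ = tw - ta) (hy : 0 < y) (h1 : tw ≤ t2)
    (h2 : t2 ≤ 1) (z : Pair n → ℝ) :
    S2 y τ x s S.F S.D z = k ^ 2 / 2 * (∑ i, ∑ j, Cl S t2 (Tw.m ⟨x, y, t0, ta, tw, t2⟩)
      (Tw.σ ⟨x, y, t0, ta, tw, t2⟩) 2 i j z ^ 2 - n) := by
  rw [sym_sum (fun i j => by rw [Cl_comm]) fun i => Cl_self 2 (Pm3 S.x0 hy 2 (by norm_num)) i z]
  have e1 : S2 y τ x s S.F S.D z =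
      ∑ e, Ax y (√(tw - ta)) (uu x tw S.F) (dd x tw S.F S.D e) z ^ 2 := by
    rw [hτ, hs]; rfl
  rw [e1]
  simp only [grad_eq (t0 := t0) S h1 h2, mul_pow]
  rw [← Finset.mul_sum]
  ring

/-! ### the numbers of the two-layer law as nested means -/

lemma Al2_eq (φ : (Pair n → ℝ) → ℝ) (z : Pair n → ℝ) :
    Al S t2 (Tw.m ⟨x, y, t0, ta, tw, t2⟩) (Tw.σ ⟨x, y, t0, ta, tw, t2⟩) 2 φ z =
      ∫ g, φ (z + √(ta - t0) • g) ∂(gI (Pair n)) := by
  have : Al S t2 (Tw.m ⟨x, y, t0, ta, tw, t2⟩) (Tw.σ ⟨x, y, t0, ta, tw, t2⟩) 2 φ z =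
      Ax 0 (√(ta - t0)) (Ul S t2 (Tw.m ⟨x, y, t0, ta, tw, t2⟩)
        (Tw.σ ⟨x, y, t0, ta, tw, t2⟩) 2) φ z := rfl
  rw [this]
  unfold Ax
  simp

/-- the deep factors of the weight -/
noncomputable def al (S : CS n k x) (y t0 ta tw t2 : ℝ) (p : Fin n × Fin n)
    (v : Pair n → ℝ) : ℝ :=
  QR S t2 (Tw.m ⟨x, y, t0, ta, tw, t2⟩) (Tw.σ ⟨x, y, t0, ta, tw, t2⟩) 3 v p.1 p.2

/-- the late factors of the weight -/
noncomputable def lf (S : CS n k x) (y t0 ta tw t2 : ℝ) (p : Fin n × Fin n)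
    (z : Pair n → ℝ) : ℝ :=
  Gl S t2 (Tw.m ⟨x, y, t0, ta, tw, t2⟩) (Tw.σ ⟨x, y, t0, ta, tw, t2⟩) 2 p.1 p.2 z

/-- the squared norm of `C_a` -/
noncomputable def fca (S : CS n k x) (y t0 ta tw t2 : ℝ) (z : Pair n → ℝ) : ℝ :=
  ∑ i, ∑ j, Cl S t2 (Tw.m ⟨x, y, t0, ta, tw, t2⟩) (Tw.σ ⟨x, y, t0, ta, tw, t2⟩) 2 i j z ^ 2

lemma eg_al (hy : 0 < y) (p : Fin n × Fin n) : EG (al S y t0 ta tw t2 p) :=
  eg_QR 3 (Pm3 S.x0 hy 3 le_rfl) p.1 p.2

lemma eg_lf (hy : 0 < y) (p : Fin n × Fin n) : EG (lf S y t0 ta tw t2 p) :=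
  eg_Gl 2 (Pm3 S.x0 hy 2 (by norm_num)) p.1 p.2

lemma eg_fca (hy : 0 < y) : EG (fca S y t0 ta tw t2) := by
  unfold fca
  refine EG.sum _ fun i _ => EG.sum _ fun j _ => ?_
  have h := eg_Cl (S := S) (t2 := t2) (σ := Tw.σ ⟨x, y, t0, ta, tw, t2⟩) 2
    (Pm3 (t0 := t0) (ta := ta) (tw := tw) (t2 := t2) S.x0 hy 2 (by norm_num)) i j
  have e : (fun z => Cl S t2 (Tw.m ⟨x, y, t0, ta, tw, t2⟩) (Tw.σ ⟨x, y, t0, ta, tw, t2⟩) 2
    i j z ^ 2) = fun z => Cl S t2 (Tw.m ⟨x, y, t0, ta, tw, t2⟩)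
      (Tw.σ ⟨x, y, t0, ta, tw, t2⟩) 2 i j z * Cl S t2 (Tw.m ⟨x, y, t0, ta, tw, t2⟩)
      (Tw.σ ⟨x, y, t0, ta, tw, t2⟩) 2 i j z := funext fun z => _root_.sq _
  rw [e]
  exact h.mul h

/-- the weight is nonnegative -/
lemma wt_nonneg (hy : 0 < y) (v z : Pair n → ℝ) :
    0 ≤ ∑ p ∈ (Finset.univ : Finset (Fin n × Fin n)),
      al S y t0 ta tw t2 p v * lf S y t0 ta tw t2 p z := by
  have h := H522.ip_nonneg
    (QR_psd (S := S) (t2 := t2) (σ := Tw.σ ⟨x, y, t0, ta, tw, t2⟩) 3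
      (Pm3 (t0 := t0) (ta := ta) (tw := tw) (t2 := t2) S.x0 hy 3 le_rfl) v)
    (QR_psd (S := S) (t2 := t2) (σ := Tw.σ ⟨x, y, t0, ta, tw, t2⟩) 2
      (Pm3 (t0 := t0) (ta := ta) (tw := tw) (t2 := t2) S.x0 hy 2 (by norm_num)) z)
  rw [Fintype.sum_prod_type]
  exact h

/-- the weight is at most `n⁴` -/
lemma wt_le (hy : 0 < y) (v z : Pair n → ℝ) :
    ∑ p ∈ (Finset.univ : Finset (Fin n × Fin n)),
      al S y t0 ta tw t2 p v * lf S y t0 ta tw t2 p z ≤ (n : ℝ) ^ 4 := by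
  have h : ∀ p ∈ (Finset.univ : Finset (Fin n × Fin n)),
      al S y t0 ta tw t2 p v * lf S y t0 ta tw t2 p z ≤ (n : ℝ) * n := by
    intro p _
    refine (le_abs_self _).trans ?_
    rw [abs_mul]
    exact mul_le_mul (abs_QR 3 (Pm3 S.x0 hy 3 le_rfl) v p.1 p.2)
      (abs_QR 2 (Pm3 S.x0 hy 2 (by norm_num)) z p.1 p.2) (abs_nonneg _) (Nat.cast_nonneg _)
  refine (Finset.sum_le_sum h).trans (le_of_eq ?_)
  simp
  ring

/-- the nested mean with the sum inside -/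
lemma nm_eq' {κ : Type} [Fintype κ] [DecidableEq κ] {ι : Type*} {P : Finset ι}
    {α T : ι → (κ → ℝ) → ℝ} {φ : (κ → ℝ) → ℝ} (hα : ∀ p ∈ P, EG (α p))
    (hT : ∀ p ∈ P, EG (T p)) (hφ : EG φ) (t0 ta : ℝ) :
    nm P α T t0 ta φ = ∫ g0, (∫ g1, φ (√t0 • g0 + √(ta - t0) • g1) *
      ∑ p ∈ P, α p (√t0 • g0) * T p (√t0 • g0 + √(ta - t0) • g1) ∂(gI κ)) ∂(gI κ) := by
  unfold nm
  rw [← integral_finsetSum]
  · refine integral_congr_ae (Filter.Eventually.of_forall fun g0 => ?_)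
    simp only
    simp_rw [Finset.mul_sum]
    rw [integral_finsetSum]
    · refine Finset.sum_congr rfl fun p hp => ?_
      rw [← integral_const_mul]
      exact integral_congr_ae (Filter.Eventually.of_forall fun g1 => by simp only; ring)
    · intro p hp
      have h1 := ((EG.add_smul (hφ.mul (hT p hp)) (√t0 • g0) (√(ta - t0))).const_mul
        (α p (√t0 • g0))).integrable
      refine h1.congr (Filter.Eventually.of_forall fun g1 => ?_)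
      simp only
      ring
  · intro p hp
    exact ((EG.smul' (hα p hp) (√t0)).mul
      (EG.smul' (EG.conv (hφ.mul (hT p hp)) (√(ta - t0))) (√t0))).integrable

theorem nR_eq (hy : 0 < y) : nR S ⟨x, y, t0, ta, tw, t2⟩ 2 =
    nm Finset.univ (al S y t0 ta tw t2) (lf S y t0 ta tw t2) t0 ta (fca S y t0 ta tw t2) := by
  rw [nm_eq' (fun p _ => eg_al S hy p) (fun p _ => eg_lf S hy p) (eg_fca S hy)]
  unfold nR
  refine integral_congr_ae (Filter.Eventually.of_forall fun g0 => ?_)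
  simp only
  have e : ∀ ψ : (Pair n → ℝ) → ℝ, Lf S t2 (Tw.m ⟨x, y, t0, ta, tw, t2⟩)
      (Tw.σ ⟨x, y, t0, ta, tw, t2⟩) 2 ψ (3 - 2) (√t0 • g0) =
      ∫ g, ψ (√t0 • g0 + √(ta - t0) • g) ∂(gI (Pair n)) := fun ψ =>
    Al2_eq S ψ (√t0 • g0)
  rw [e]
  refine integral_congr_ae (Filter.Eventually.of_forall fun g1 => ?_)
  simp only [RR3, fca]
  rw [Fintype.sum_prod_type]
  rfl

theorem nA_eq (hy : 0 < y) : nA S ⟨x, y, t0, ta, tw, t2⟩ =
    nm Finset.univ (al S y t0 ta tw t2) (lf S y t0 ta tw t2) t0 ta (fun _ => 1) := by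
  have h1 : ∀ g : Pair n → ℝ, fr (Yq S ⟨x, y, t0, ta, tw, t2⟩ g) =
      ∑ p ∈ (Finset.univ : Finset (Fin n × Fin n)), al S y t0 ta tw t2 p (√t0 • g) *
        ∫ g1, 1 * lf S y t0 ta tw t2 p (√t0 • g + √(ta - t0) • g1) ∂(gI (Pair n)) := by
    intro g
    unfold fr
    rw [Fintype.sum_prod_type]
    refine Finset.sum_congr rfl fun i _ => Finset.sum_congr rfl fun j _ => ?_
    simp only [one_mul]
    have h2 := Al2_eq S (y := y) (t0 := t0) (ta := ta) (tw := tw) (t2 := t2)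
      (lf S y t0 ta tw t2 (i, j)) (√t0 • g)
    rw [← h2, _root_.sq]
    rfl
  unfold nA nm
  simp_rw [h1]
  rw [integral_finsetSum]
  intro p hp
  simp only [one_mul]
  exact ((EG.smul' (eg_al S hy p) (√t0)).mul
      (EG.smul' (EG.conv (eg_lf S hy p) (√(ta - t0))) (√t0))).integrable

/-- `A ≥ n` -/
theorem n_le_nA (hy : 0 < y) : (n : ℝ) ≤ nA S ⟨x, y, t0, ta, tw, t2⟩ := by
  have hm := Pm3 (t0 := t0) (ta := ta) (tw := tw) (t2 := t2) S.x0 hy 3 le_rfl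
  have h1 : ∀ g : Pair n → ℝ, (n : ℝ) ≤ fr (Yq S ⟨x, y, t0, ta, tw, t2⟩ g) := by
    intro g
    have h2 : ∀ i, (1 : ℝ) ≤ Yq S ⟨x, y, t0, ta, tw, t2⟩ g i i := by
      intro i
      have h3 : 0 ≤ Tl S t2 (Tw.m ⟨x, y, t0, ta, tw, t2⟩) (Tw.σ ⟨x, y, t0, ta, tw, t2⟩)
          (fun u => H693.A2 S t2 i i u + (-1)) 3 (√t0 • g) := by
        refine TP_nonneg (fun u => ?_) 3 _
        have h4 : (1 : ℝ) ≤ H693.A2 S t2 i i u := by
          unfold H693.A2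
          have h5 : S.A t2 u i i * S.A t2 u i i ≤ ∑ l, S.A t2 u i l * S.A t2 u l i := by
            refine Finset.single_le_sum (f := fun l => S.A t2 u i l * S.A t2 u l i)
              (fun l _ => ?_) (Finset.mem_univ i)
            rw [S.A_comm t2 u l i]
            exact mul_self_nonneg _
          rw [S.A_self] at h5
          linarith
        linarith
      unfold Tl at h3
      rw [TP_add hU (eg_A2 S t2 i i) (EG.const (-1)) 3 hm, TP_const hU (-1) 3 hm] at h3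
      simp only at h3
      have h6 : Yq S ⟨x, y, t0, ta, tw, t2⟩ g i i = TD (uu x t2 S.F)
        (Tw.m ⟨x, y, t0, ta, tw, t2⟩) (Tw.σ ⟨x, y, t0, ta, tw, t2⟩) (H693.A2 S t2 i i) 3
          (√t0 • g) := rfl
      rw [h6]
      linarith
    unfold fr
    calc (n : ℝ) = ∑ i : Fin n, (1 : ℝ) := by simp
      _ ≤ _ := Finset.sum_le_sum fun i _ => by
        have h7 : Yq S ⟨x, y, t0, ta, tw, t2⟩ g i i ^ 2 ≤
            ∑ j, Yq S ⟨x, y, t0, ta, tw, t2⟩ g i j ^ 2 :=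
          Finset.single_le_sum (f := fun j => Yq S ⟨x, y, t0, ta, tw, t2⟩ g i j ^ 2)
            (fun j _ => sq_nonneg _) (Finset.mem_univ i)
        have h8 := h2 i
        nlinarith
  unfold nA
  have eY : ∀ i j, EG fun g : Pair n → ℝ => Yq S ⟨x, y, t0, ta, tw, t2⟩ g i j := fun i j =>
    EG.smul' (eg_QR 3 hm i j) (√t0)
  have e2 : EG fun g : Pair n → ℝ => fr (Yq S ⟨x, y, t0, ta, tw, t2⟩ g) := by
    unfold fr
    refine EG.sum _ fun i _ => EG.sum _ fun j _ => ?_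
    simp only [_root_.sq]
    exact (eY i j).mul (eY i j)
  refine le_trans (le_of_eq ?_) (integral_mono (integrable_const (n : ℝ)) e2.integrable h1)
  simp

/-- **The upper bracket in the numbers of the two-layer law.** -/
theorem nR_le {s τ E : ℝ} (hn : 0 < n) (hs : tw = 1 - s) (hτ : τ = tw - ta) (hτ0 : 0 < τ)
    (hy : 0 < y) (hyx : y < x) (h1 : tw ≤ t2) (h2 : t2 ≤ 1) (h0 : 0 ≤ t0) (h3 : t0 ≤ ta)
    (h4 : 0 < ta)
    (hb : ∀ q : (Pair n → ℝ) → ℝ, EG q → (∀ z, 0 ≤ q z) → ∫ z, q z ∂(gI (Pair n)) = 1 →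
      (∀ z, q z ≤ (n : ℝ) ^ 4) →
      (x - y) / 2 * (τ * ∫ z, q z * S2 y τ x s S.F S.D (√ta • z) ∂(gI (Pair n))) ≤ E) :
    nR S ⟨x, y, t0, ta, tw, t2⟩ 2 ≤
      (n + 4 * E / (k ^ 2 * (x - y) * τ)) * nA S ⟨x, y, t0, ta, tw, t2⟩ := by
  have hk := S.k0
  have hA := nA_eq S (t0 := t0) (ta := ta) (tw := tw) (t2 := t2) hy
  have hn1 : (1 : ℝ) ≤ n := by exact_mod_cast hn
  have hA1 := n_le_nA S (t0 := t0) (ta := ta) (tw := tw) (t2 := t2) hy
  have hA0 : 0 < nA S ⟨x, y, t0, ta, tw, t2⟩ := by linarith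
  obtain ⟨q, eq, q0, qM, q1, -, -, key⟩ := base_density (fun p _ => eg_al S hy p)
    (fun p _ => eg_lf S hy p) h0 h3 h4 (wt_nonneg S hy) (wt_le S hy) hA hA0
  have hq : ∀ z, q z ≤ (n : ℝ) ^ 4 := fun z => (qM z).trans
    (div_le_self (by positivity) (by linarith))
  have hb' := hb q eq q0 q1 hq
  rw [nR_eq S hy, key _ (eg_fca S hy)]
  have e1 : ∀ z, S2 y τ x s S.F S.D z = k ^ 2 / 2 * (fca S y t0 ta tw t2 z - n) := fun z =>
    S2_eq S hs hτ hy h1 h2 z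
  have i1 := (eq.mul (EG.smul' (eg_fca S (t0 := t0) (ta := ta) (tw := tw) (t2 := t2) hy)
    (√ta))).integrable
  have e2 : ∫ z, q z * S2 y τ x s S.F S.D (√ta • z) ∂(gI (Pair n)) =
      k ^ 2 / 2 * (∫ z, q z * fca S y t0 ta tw t2 (√ta • z) ∂(gI (Pair n)) - n) := by
    have e3 : ∀ z, q z * S2 y τ x s S.F S.D (√ta • z) =
        k ^ 2 / 2 * (q z * fca S y t0 ta tw t2 (√ta • z) - n * q z) := fun z => by
      rw [e1]; ring
    simp_rw [e3]
    rw [integral_const_mul, integral_sub i1 (eq.integrable.const_mul _), integral_const_mul, q1,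
      mul_one]
  rw [e2] at hb'
  obtain ⟨I, hI⟩ : ∃ I, I = ∫ z, q z * fca S y t0 ta tw t2 (√ta • z) ∂(gI (Pair n)) := ⟨_, rfl⟩
  rw [← hI] at hb' ⊢
  have hxy : 0 < x - y := by linarith
  have h5 : I ≤ n + 4 * E / (k ^ 2 * (x - y) * τ) := by
    have h6 : k ^ 2 * (x - y) * τ * (I - n) ≤ 4 * E := by nlinarith
    have h7 : I - n ≤ 4 * E / (k ^ 2 * (x - y) * τ) := by
      rw [le_div_iff₀ (by positivity)]
      linarith
    linarith
  rw [mul_comm]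
  exact mul_le_mul_of_nonneg_right h5 hA0.le

end cs

end Vale.Agent.P146.H376
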