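import Vale.Agent.P146.H364.Pb
import Vale.Agent.P146.H706G.LawT
import Vale.Agent.P146.H326.Mom
import Vale.Agent.P146.H645.CSys
import Vale.Agent.P146.H816.TwoSk

/-!
P146, plan R2, the row Mis, (V2): the row averages `M_b` of the responses `H_b` of two different
rows are close to each other in quadratic mean (exchange of the two rows, Gaussian Poincaré
inequality in the two rows, law change).
-/

open MeasureTheory ProbabilityTheory Finset Matrix

namespace Vale.Agent.P146.H376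

open Vale.Agent.P157.Lv Vale.Agent.P146.H425 Vale.Agent.P146.H325
  Vale.Agent.P146.H712 Vale.Agent.P146.R1 Vale.Agent.P146.R1C Vale.Agent.P146.H706
  Vale.Agent.P146.R1S Vale.Agent.P146.H191 Vale.Agent.P146.H364
open Vale.Agent.P146.H332

set_option linter.unusedSectionVars false

variable {n : ℕ} {k x s : ℝ} {S : CS n k x} {a : Fin 4 → ℝ}
  {DH : Fin n → Pair n → (Pair n → ℝ) → Matrix (Fin n) (Fin n) ℝ}

/-- Derivative data of the responses `H_b`. -/
structure DHd (S : CS n k x) (s : ℝ)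
    (DH : Fin n → Pair n → (Pair n → ℝ) → Matrix (Fin n) (Fin n) ℝ) : Prop where
  pd : ∀ b e i j, PD e (fun z => S.H s b z i j) fun z => DH b e z i j
  eg : ∀ b e i j, EG fun z => DH b e z i j

/-- The coordinates of two rows. -/
noncomputable def R2 (b b' : Fin n) : Finset (K4 (Pair n)) := lf (row b ∪ row b')

lemma row_sub (b b' : Fin n) : lf (row b) ⊆ R2 b b' := lf_subset Finset.subset_union_left

lemma row_sub' (b b' : Fin n) : lf (row b') ⊆ R2 b b' := lf_subset Finset.subset_union_right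

/-! ### the exchange of two rows -/

lemma mem_R2_pk (b b' : Fin n) (j : K4 (Pair n)) :
    H816.pk (Equiv.swap b b') j ∈ R2 b b' ↔ j ∈ R2 b b' := by
  have h1 := H816.mem_lf_pk (Equiv.swap b b') b j
  have h2 := H816.mem_lf_pk (Equiv.swap b b') b' j
  rw [Equiv.swap_apply_left] at h1
  rw [Equiv.swap_apply_right] at h2
  unfold R2
  rw [lf_union, Finset.mem_union, Finset.mem_union, h1, h2, or_comm]

lemma lp_pk (π : Equiv.Perm (Fin n)) (w : K4 (Pair n) → ℝ) :
    H712.lp a (H816.actp (H816.pk π) w) = H816.act π (H712.lp a w) := rfl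

/-- the mean over the two rows of the entries of `M_b` which avoid the two sites is the one of
`M_b'` -/
lemma Av_Mb_swap (hs : 0 < s) {b b' i j : Fin n} (h1 : i ≠ b) (h2 : i ≠ b') (h3 : j ≠ b)
    (h4 : j ≠ b') (w : K4 (Pair n) → ℝ) :
    Av (R2 b b') (fun w => Mb S s a b w i j) w = Av (R2 b b') (fun w => Mb S s a b' w i j) w := by
  have e1 : Av (R2 b b') (fun w => Mb S s a b w i j) w =
      Av (R2 b b') (fun w => S.H s b (H712.lp a w) i j) w :=
    H326.Av_Av (row_sub b b') (eg_Hl hs i j) w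
  have e2 : Av (R2 b b') (fun w => Mb S s a b' w i j) w =
      Av (R2 b b') (fun w => S.H s b' (H712.lp a w) i j) w :=
    H326.Av_Av (row_sub' b b') (eg_Hl hs i j) w
  rw [e1, e2]
  have e3 : ∀ w : K4 (Pair n) → ℝ, S.H s b' (H712.lp a w) i j =
      S.H s b (H712.lp a (H816.actp (H816.pk (Equiv.swap b b')) w)) i j := by
    intro w
    rw [lp_pk, S.H_act _ hs, Equiv.swap_apply_left, Equiv.swap_apply_of_ne_of_ne h1 h2,
      Equiv.swap_apply_of_ne_of_ne h3 h4]
  have e4 := H816.Av_actp (H816.pk (Equiv.swap b b')) (mem_R2_pk b b')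
    (fun w : K4 (Pair n) → ℝ => S.H s b (H712.lp a w) i j) w
  have e5 := H816.ind_actp (ρ := H816.pk (Equiv.swap b b')) (S := R2 b b') (fun e he =>
    H816.pk_fix fun h => he (by unfold R2; rwa [lf_union]))
    (ind_Av (R2 b b') fun w : K4 (Pair n) → ℝ => S.H s b (H712.lp a w) i j) w
  rw [Av_congr e3 w]
  exact (e4.trans e5).symm

/-! ### the derivatives of `M_b` -/

/-- The derivative of `M_b` in the coordinate `j`. -/
noncomputable def DMb (DH : Fin n → Pair n → (Pair n → ℝ) → Matrix (Fin n) (Fin n) ℝ)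
    (a : Fin 4 → ℝ) (b : Fin n) (j : K4 (Pair n)) (i l : Fin n) (w : K4 (Pair n) → ℝ) : ℝ :=
  if j ∈ lf (row b) then 0
  else Av (lf (row b)) (fun w => a (bl j) * DH b (bs j) (H712.lp a w) i l) w

lemma eg_DHl (hD : DHd S s DH) (b : Fin n) (j : K4 (Pair n)) (i l : Fin n) :
    EG fun w : K4 (Pair n) → ℝ => a (bl j) * DH b (bs j) (H712.lp a w) i l :=
  (eg_lp a (hD.eg b (bs j) i l)).const_mul _

lemma eg_DMb (hD : DHd S s DH) (b : Fin n) (j : K4 (Pair n)) (i l : Fin n) :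
    EG (DMb DH a b j i l) := by
  unfold DMb
  by_cases h : j ∈ lf (row b)
  · simp only [h, if_true]
    exact EG.const 0
  · simp only [h, if_false]
    exact eg_Av _ (eg_DHl hD b j i l)

lemma pd_Mb (hs : 0 < s) (hD : DHd S s DH) (b : Fin n) (j : K4 (Pair n)) (i l : Fin n) :
    PD j (fun w => Mb S s a b w i l) (DMb DH a b j i l) := by
  unfold DMb
  by_cases h : j ∈ lf (row b)
  · simp only [h, if_true]
    exact (Fr.of_ind (ind_Mb (S := S) (s := s) (a := a) i l)) j (mem_lf_bs.1 h)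
  · simp only [h, if_false]
    have h1 : PD j (fun w : K4 (Pair n) → ℝ => S.H s b (H712.lp a w) i l) fun w =>
        a (bl j) * DH b (bs j) (H712.lp a w) i l := pd_lp a (hD.pd b (bs j) i l)
    have h2 := PD.J h1 (eg_Hl (S := S) (a := a) hs i l) (eg_DHl hD b j i l)
      (lev := lvR (lf (row b))) (l := 0) (by unfold lvR; rw [if_neg h])
    simp only [← Av_eq] at h2
    exact h2

/-- The number of the derivatives of `H_b` in the row `b'`. -/
noncomputable def Xb (DH : Fin n → Pair n → (Pair n → ℝ) → Matrix (Fin n) (Fin n) ℝ)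
    (a : Fin 4 → ℝ) (b b' : Fin n) (w : K4 (Pair n) → ℝ) : ℝ :=
  vr a * ∑ e ∈ row b', fr (DH b e (H712.lp a w))

lemma eg_Xb (hD : DHd S s DH) (b b' : Fin n) : EG (Xb DH a b b') := by
  unfold Xb fr
  exact (EG.sum _ fun e _ => EG.sum _ fun i _ => EG.sum _ fun j _ =>
    (eg_lp a (hD.eg b e i j)).pow 2).const_mul _

lemma Xb_nonneg (b b' : Fin n) (w : K4 (Pair n) → ℝ) : 0 ≤ Xb DH a b b' w :=
  mul_nonneg (vr_nonneg a) (Finset.sum_nonneg fun _ _ => H325.fr_nonneg _)

/-- the gradient of `M_b` in the two rows -/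
lemma sum_DMb (hD : DHd S s DH) (b b' : Fin n) (w : K4 (Pair n) → ℝ) :
    ∑ i, ∑ l, ∑ j ∈ R2 b b', DMb DH a b j i l w ^ 2 ≤ Av (lf (row b)) (Xb DH a b b') w := by
  have h1 : ∀ i l, ∑ j ∈ R2 b b', DMb DH a b j i l w ^ 2 ≤
      Av (lf (row b)) (fun w => vr a * ∑ e ∈ row b', DH b e (H712.lp a w) i l ^ 2) w := by
    intro i l
    have h2 : ∑ j ∈ R2 b b', DMb DH a b j i l w ^ 2 ≤
        ∑ j ∈ lf (row b'), Av (lf (row b))
          (fun w => (a (bl j) * DH b (bs j) (H712.lp a w) i l) ^ 2) w := by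
      have h3 : ∑ j ∈ R2 b b', DMb DH a b j i l w ^ 2 =
          ∑ j ∈ lf (row b'), DMb DH a b j i l w ^ 2 := by
        refine (Finset.sum_subset (row_sub' b b') fun j hj hj' => ?_).symm
        have h4 : j ∈ lf (row b) := by
          unfold R2 at hj
          rw [lf_union, Finset.mem_union] at hj
          rcases hj with h | h
          · exact h
          · exact absurd h hj'
        unfold DMb
        rw [if_pos h4]
        ring
      rw [h3]
      refine Finset.sum_le_sum fun j _ => ?_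
      unfold DMb
      by_cases h : j ∈ lf (row b)
      · rw [if_pos h]
        have := Av_nonneg (R := lf (row b)) (F := fun w : K4 (Pair n) → ℝ =>
          (a (bl j) * DH b (bs j) (H712.lp a w) i l) ^ 2) (fun w => sq_nonneg _) w
        simpa using this
      · rw [if_neg h]
        exact Av_sq_le (eg_DHl hD b j i l) w
    refine h2.trans (le_of_eq ?_)
    rw [← Av_sum _ fun j _ => (eg_DHl hD b j i l).pow 2]
    refine Av_congr (fun w => ?_) w
    exact sum_lp_sq a (row b') fun e => DH b e (H712.lp a w) i l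
  have e1 : ∀ i l, EG fun w : K4 (Pair n) → ℝ =>
      vr a * ∑ e ∈ row b', DH b e (H712.lp a w) i l ^ 2 := fun i l =>
    (EG.sum _ fun e _ => (eg_lp a (hD.eg b e i l)).pow 2).const_mul _
  calc ∑ i, ∑ l, ∑ j ∈ R2 b b', DMb DH a b j i l w ^ 2
      ≤ ∑ i, ∑ l, Av (lf (row b)) (fun w => vr a * ∑ e ∈ row b', DH b e (H712.lp a w) i l ^ 2) w :=
        Finset.sum_le_sum fun i _ => Finset.sum_le_sum fun l _ => h1 i l
    _ = Av (lf (row b)) (fun w => ∑ i, ∑ l, vr a * ∑ e ∈ row b', DH b e (H712.lp a w) i l ^ 2)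
          w := by
        rw [Av_sum _ fun i _ => EG.sum _ fun l _ => e1 i l]
        exact Finset.sum_congr rfl fun i _ => (Av_sum _ (fun l _ => e1 i l) w).symm
    _ = _ := by
        refine Av_congr (fun w => ?_) w
        unfold Xb fr
        simp only [← Finset.mul_sum]
        congr 1
        calc ∑ i, ∑ l, ∑ e ∈ row b', DH b e (H712.lp a w) i l ^ 2
            = ∑ i, ∑ e ∈ row b', ∑ l, DH b e (H712.lp a w) i l ^ 2 :=
              Finset.sum_congr rfl fun i _ => Finset.sum_comm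
          _ = ∑ e ∈ row b', ∑ i, ∑ l, DH b e (H712.lp a w) i l ^ 2 := Finset.sum_comm

/-! ### two rows: the Poincaré inequality -/

/-- The entry avoids the two sites. -/
def Bu (b b' i l : Fin n) : Prop := i ≠ b ∧ i ≠ b' ∧ l ≠ b ∧ l ≠ b'

instance (b b' i l : Fin n) : Decidable (Bu b b' i l) := by unfold Bu; infer_instance

/-- The difference of `M_b` and `M_b'` in the bulk. -/
noncomputable def fD (S : CS n k x) (s : ℝ) (a : Fin 4 → ℝ) (b b' i l : Fin n)
    (w : K4 (Pair n) → ℝ) : ℝ :=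
  if Bu b b' i l then Mb S s a b w i l - Mb S s a b' w i l else 0

/-- Its derivatives. -/
noncomputable def fD' (DH : Fin n → Pair n → (Pair n → ℝ) → Matrix (Fin n) (Fin n) ℝ)
    (a : Fin 4 → ℝ) (b b' i l : Fin n) (j : K4 (Pair n)) (w : K4 (Pair n) → ℝ) : ℝ :=
  if Bu b b' i l then DMb DH a b j i l w - DMb DH a b' j i l w else 0

lemma eg_fD (hs : 0 < s) (b b' i l : Fin n) : EG (fD S s a b b' i l) := by
  unfold fD
  by_cases h : Bu b b' i l
  · simp only [if_pos h]
    exact (eg_Mb hs i l).sub (eg_Mb hs i l)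
  · simp only [if_neg h]
    exact EG.const 0

lemma eg_fD' (hD : DHd S s DH) (b b' i l : Fin n) (j : K4 (Pair n)) :
    EG (fD' DH a b b' i l j) := by
  unfold fD'
  by_cases h : Bu b b' i l
  · simp only [if_pos h]
    exact (eg_DMb hD b j i l).sub (eg_DMb hD b' j i l)
  · simp only [if_neg h]
    exact EG.const 0

lemma pd_fD (hs : 0 < s) (hD : DHd S s DH) (b b' i l : Fin n) (j : K4 (Pair n)) :
    PD j (fD S s a b b' i l) (fD' DH a b b' i l j) := by
  unfold fD fD'
  by_cases h : Bu b b' i l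
  · simp only [if_pos h]
    exact (pd_Mb hs hD b j i l).sub (pd_Mb hs hD b' j i l)
  · simp only [if_neg h]
    exact PD.const 0

lemma Av_fD (hs : 0 < s) (b b' i l : Fin n) (w : K4 (Pair n) → ℝ) :
    Av (R2 b b') (fD S s a b b' i l) w = 0 := by
  by_cases h : Bu b b' i l
  · have e : Av (R2 b b') (fD S s a b b' i l) w =
        Av (R2 b b') (fun w => Mb S s a b w i l - Mb S s a b' w i l) w :=
      Av_congr (fun w => by unfold fD; rw [if_pos h]) w
    rw [e, Av_sub (eg_Mb hs i l) (eg_Mb hs i l), Av_Mb_swap hs h.1 h.2.1 h.2.2.1 h.2.2.2, sub_self]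
  · rw [Av_congr (G := fun _ => 0) (fun w => by unfold fD; rw [if_neg h]) w]
    exact Av_const _ _

/-- in the two rows at most one of the two derivatives does not vanish -/
lemma fD'_sq (b b' i l : Fin n) {j : K4 (Pair n)} (hj : j ∈ R2 b b') (w : K4 (Pair n) → ℝ) :
    fD' DH a b b' i l j w ^ 2 ≤ DMb DH a b j i l w ^ 2 + DMb DH a b' j i l w ^ 2 := by
  unfold fD'
  split_ifs
  · unfold R2 at hj
    rw [lf_union, Finset.mem_union] at hj
    rcases hj with h | h
    · have e : DMb DH a b j i l w = 0 := by unfold DMb; rw [if_pos h]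
      rw [e]
      nlinarith [sq_nonneg (DMb DH a b' j i l w)]
    · have e : DMb DH a b' j i l w = 0 := by unfold DMb; rw [if_pos h]
      rw [e]
      nlinarith [sq_nonneg (DMb DH a b j i l w)]
  · nlinarith [sq_nonneg (DMb DH a b j i l w), sq_nonneg (DMb DH a b' j i l w)]

/-- The number of the pair `b, b'` in the bulk. -/
noncomputable def Fp (S : CS n k x) (s : ℝ) (a : Fin 4 → ℝ) (b b' : Fin n)
    (w : K4 (Pair n) → ℝ) : ℝ := ∑ i, ∑ l, fD S s a b b' i l w ^ 2

lemma eg_Fp (hs : 0 < s) (b b' : Fin n) : EG (Fp S s a b b') :=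
  EG.sum _ fun i _ => EG.sum _ fun l _ => (eg_fD hs b b' i l).pow 2

lemma Fp_nonneg (b b' : Fin n) (w : K4 (Pair n) → ℝ) : 0 ≤ Fp S s a b b' w :=
  Finset.sum_nonneg fun _ _ => Finset.sum_nonneg fun _ _ => sq_nonneg _

/-- **exchange + Poincaré**: two rows at a fixed bulk -/
theorem Av_Fp (hs : 0 < s) (hD : DHd S s DH) (b b' : Fin n) (w : K4 (Pair n) → ℝ) :
    Av (R2 b b') (Fp S s a b b') w ≤
      Av (R2 b b') (fun w => Xb DH a b b' w + Xb DH a b' b w) w := by
  have e1 : ∀ i l, EG (fun w => fD S s a b b' i l w ^ 2) := fun i l =>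
    (eg_fD hs b b' i l).pow 2
  have e2 : ∀ i l, EG (fun w => ∑ j ∈ R2 b b', fD' DH a b b' i l j w ^ 2) := fun i l =>
    EG.sum _ fun j _ => (eg_fD' hD b b' i l j).pow 2
  have h1 : Av (R2 b b') (Fp S s a b b') w ≤
      Av (R2 b b') (fun w => ∑ i, ∑ l, ∑ j ∈ R2 b b', fD' DH a b b' i l j w ^ 2) w := by
    unfold Fp
    rw [Av_sum _ fun i _ => EG.sum _ fun l _ => e1 i l,
      Av_sum _ fun i _ => EG.sum _ fun l _ => e2 i l]
    refine Finset.sum_le_sum fun i _ => ?_
    rw [Av_sum _ fun l _ => e1 i l, Av_sum _ fun l _ => e2 i l]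
    refine Finset.sum_le_sum fun l _ => ?_
    have h := H326.var_Av (R := R2 b b') (eg_fD (S := S) (a := a) hs b b' i l)
      (fun j _ => pd_fD hs hD b b' i l j) (fun j _ => eg_fD' hD b b' i l j) w
    rw [Av_fD hs] at h
    linarith
  refine h1.trans ?_
  have eX : ∀ b b', EG (Av (lf (row b)) (Xb DH a b b')) := fun b b' => eg_Av _ (eg_Xb hD b b')
  have h2 : Av (R2 b b') (fun w => ∑ i, ∑ l, ∑ j ∈ R2 b b', fD' DH a b b' i l j w ^ 2) w ≤
      Av (R2 b b') (fun w => Av (lf (row b)) (Xb DH a b b') w +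
        Av (lf (row b')) (Xb DH a b' b) w) w := by
    refine Av_mono (EG.sum _ fun i _ => EG.sum _ fun l _ => e2 i l) ((eX b b').add (eX b' b))
      (fun w => ?_) w
    have g1 := sum_DMb hD b b' (a := a) w
    have g2 := sum_DMb hD b' b (a := a) w
    have e3 : R2 b' b = R2 b b' := by unfold R2; rw [Finset.union_comm]
    rw [e3] at g2
    refine le_trans ?_ (add_le_add g1 g2)
    simp only [← Finset.sum_add_distrib]
    exact Finset.sum_le_sum fun i _ => Finset.sum_le_sum fun l _ => Finset.sum_le_sum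
      fun j hj => fD'_sq b b' i l hj w
  refine h2.trans (le_of_eq ?_)
  rw [H326.Av_add (eX b b') (eX b' b), H326.Av_add (eg_Xb hD b b') (eg_Xb hD b' b),
    H326.Av_Av (row_sub b b') (eg_Xb hD b b'), H326.Av_Av (row_sub' b b') (eg_Xb hD b' b)]

/-! ### the law -/

/-- A law with the law change in two rows. -/
structure Law2 (φ : (K4 (Pair n) → ℝ) → ℝ) (ε : ℝ) : Prop where
  eg : EG φ
  nn : ∀ w, 0 ≤ φ w
  ε0 : 0 ≤ ε
  up : ∀ (b b' : Fin n) (f : (K4 (Pair n) → ℝ) → ℝ) (K : ℝ), EG f → (∀ w, 0 ≤ f w) →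
    (∀ w, f w ≤ K) → Im φ f ≤ 2 * Im φ (Av (R2 b b') f) + K * ε
  lo : ∀ (b b' : Fin n) (f : (K4 (Pair n) → ℝ) → ℝ) (K : ℝ), EG f → (∀ w, 0 ≤ f w) →
    (∀ w, f w ≤ K) → Im φ (Av (R2 b b') f) ≤ 2 * Im φ f + K * ε

/-- **two rows under the law** -/
theorem Im_Fp {φ : (K4 (Pair n) → ℝ) → ℝ} {ε K KX : ℝ} (hφ : Law2 φ ε) (hs : 0 < s)
    (hD : DHd S s DH) (hK : ∀ b b' w, Fp S s a b b' w ≤ K) (hKX : ∀ b b' w, Xb DH a b b' w ≤ KX)
    (b b' : Fin n) :
    Im φ (Fp S s a b b') ≤ 4 * (Im φ (Xb DH a b b') + Im φ (Xb DH a b' b)) +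
      (K + 4 * KX) * ε := by
  have eX := (eg_Xb (a := a) hD b b').add (eg_Xb (a := a) hD b' b)
  have h1 := hφ.up b b' _ K (eg_Fp (S := S) (a := a) hs b b') (Fp_nonneg b b') (hK b b')
  have h2 : Im φ (Av (R2 b b') (Fp S s a b b')) ≤
      Im φ (Av (R2 b b') fun w => Xb DH a b b' w + Xb DH a b' b w) :=
    Im_mono hφ.nn hφ.eg (eg_Av _ (eg_Fp hs b b')) (eg_Av _ eX) fun w => Av_Fp hs hD b b' w
  have h3 := hφ.lo b b' _ (2 * KX) eX
    (fun w => add_nonneg (Xb_nonneg b b' w) (Xb_nonneg b' b w))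
    (fun w => by have := hKX b b' w; have := hKX b' b w; linarith)
  have h4 : Im φ (fun w => Xb DH a b b' w + Xb DH a b' b w) =
      Im φ (Xb DH a b b') + Im φ (Xb DH a b' b) :=
    Im_add hφ.eg (eg_Xb hD b b') (eg_Xb hD b' b)
  rw [h4] at h3
  nlinarith [h1, h2, h3]

/-! ### the sum over the pairs of rows -/

/-- The number of the pair `b, b'`. -/
noncomputable def Gp (S : CS n k x) (s : ℝ) (a : Fin 4 → ℝ) (b b' : Fin n)
    (w : K4 (Pair n) → ℝ) : ℝ := ∑ i, ∑ l, (Mb S s a b w i l - Mb S s a b' w i l) ^ 2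

/-- The squared norm of `M_b`. -/
noncomputable def fM (S : CS n k x) (s : ℝ) (a : Fin 4 → ℝ) (b : Fin n)
    (w : K4 (Pair n) → ℝ) : ℝ := ∑ i, ∑ l, Mb S s a b w i l ^ 2

lemma eg_Gp (hs : 0 < s) (b b' : Fin n) : EG (Gp S s a b b') :=
  EG.sum _ fun i _ => EG.sum _ fun l _ => ((eg_Mb hs i l).sub (eg_Mb hs i l)).pow 2

lemma eg_fM (hs : 0 < s) (b : Fin n) : EG (fM S s a b) :=
  EG.sum _ fun i _ => EG.sum _ fun l _ => (eg_Mb hs i l).pow 2

/-- the entries which meet the two sites -/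
lemma Gp_le (hs : 0 < s) (b b' : Fin n) (w : K4 (Pair n) → ℝ) :
    Gp S s a b b' w ≤ Fp S s a b b' w +
      2 * (∑ i, Mb S s a b w i b' ^ 2 + ∑ i, Mb S s a b' w i b ^ 2) := by
  obtain ⟨M, hM⟩ : ∃ M, M = Mb S s a b w := ⟨_, rfl⟩
  obtain ⟨M', hM'⟩ : ∃ M, M = Mb S s a b' w := ⟨_, rfl⟩
  have m1 : ∀ i, M i b = 0 := fun i => by rw [hM]; exact Mb_col hs w i
  have s1 : ∀ i l, M i l = M l i := fun i l => by rw [hM]; exact Mb_comm w i l
  have m2 : ∀ i, M' i b' = 0 := fun i => by rw [hM']; exact Mb_col hs w i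
  have s2 : ∀ i l, M' i l = M' l i := fun i l => by rw [hM']; exact Mb_comm w i l
  have key : ∀ i l, (M i l - M' i l) ^ 2 ≤ fD S s a b b' i l w ^ 2 +
      ((if i = b' then M i l ^ 2 else 0) + (if l = b' then M i l ^ 2 else 0) +
        ((if i = b then M' i l ^ 2 else 0) + (if l = b then M' i l ^ 2 else 0))) := by
    intro i l
    have t1 : 0 ≤ M i l ^ 2 := sq_nonneg _
    have t2 : 0 ≤ M' i l ^ 2 := sq_nonneg _
    have v1 : 0 ≤ (if i = b' then M i l ^ 2 else 0) := by split_ifs <;> simp [t1]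
    have v2 : 0 ≤ (if l = b' then M i l ^ 2 else 0) := by split_ifs <;> simp [t1]
    have v3 : 0 ≤ (if i = b then M' i l ^ 2 else 0) := by split_ifs <;> simp [t2]
    have v4 : 0 ≤ (if l = b then M' i l ^ 2 else 0) := by split_ifs <;> simp [t2]
    unfold fD
    rw [← hM, ← hM']
    by_cases h : Bu b b' i l
    · rw [if_pos h]
      linarith
    · rw [if_neg h]
      unfold Bu at h
      by_cases h1 : i = b
      · have e : M i l = 0 := by rw [h1, s1, m1]
        have e2 : (M i l - M' i l) ^ 2 = M' i l ^ 2 := by rw [e]; ring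
        rw [e2, if_pos h1]
        linarith
      · by_cases h2 : l = b
        · have e : M i l = 0 := by rw [h2, m1]
          have e2 : (M i l - M' i l) ^ 2 = M' i l ^ 2 := by rw [e]; ring
          rw [e2, if_pos h2]
          linarith
        · by_cases h3 : i = b'
          · have e : M' i l = 0 := by rw [h3, s2, m2]
            have e2 : (M i l - M' i l) ^ 2 = M i l ^ 2 := by rw [e]; ring
            rw [e2, if_pos h3]
            linarith
          · by_cases h4 : l = b'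
            · have e : M' i l = 0 := by rw [h4, m2]
              have e2 : (M i l - M' i l) ^ 2 = M i l ^ 2 := by rw [e]; ring
              rw [e2, if_pos h4]
              linarith
            · exact absurd ⟨h1, h3, h2, h4⟩ h
  have h1 : Gp S s a b b' w ≤ ∑ i, ∑ l, (fD S s a b b' i l w ^ 2 +
      ((if i = b' then M i l ^ 2 else 0) + (if l = b' then M i l ^ 2 else 0) +
        ((if i = b then M' i l ^ 2 else 0) + (if l = b then M' i l ^ 2 else 0)))) := by
    unfold Gp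
    rw [← hM, ← hM']
    exact Finset.sum_le_sum fun i _ => Finset.sum_le_sum fun l _ => key i l
  refine h1.trans (le_of_eq ?_)
  simp only [Finset.sum_add_distrib]
  have c1 : ∀ (c : Fin n) (N : Fin n → Fin n → ℝ), (∀ i l, N i l = N l i) →
      ∑ i, ∑ l, (if i = c then N i l ^ 2 else 0) = ∑ i, N i c ^ 2 := by
    intro c N hN
    rw [Finset.sum_eq_single c (fun i _ hi => by simp [hi]) (fun h => absurd (mem_univ c) h)]
    simp only [if_true]
    exact Finset.sum_congr rfl fun i _ => by rw [hN]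
  have c2 : ∀ (c : Fin n) (N : Fin n → Fin n → ℝ),
      ∑ i, ∑ l, (if l = c then N i l ^ 2 else 0) = ∑ i, N i c ^ 2 := by
    intro c N
    refine Finset.sum_congr rfl fun i _ => ?_
    simp
  rw [c1 b' M s1, c2 b' M, c1 b M' s2, c2 b M', ← hM, ← hM']
  unfold Fp
  ring

lemma sum_edges (G : Pair n → ℝ) : ∑ b, ∑ e ∈ row b, G e = 2 * ∑ e, G e := H325.sum_rows G

/-- **(V2), pair form**: the row averages `M_b` of two rows are close to each other in mean. -/
theorem v2_pair {φ : (K4 (Pair n) → ℝ) → ℝ} {ε K KX : ℝ} (hφ : Law2 φ ε) (hs : 0 < s)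
    (hD : DHd S s DH) (hK : ∀ b b' w, Fp S s a b b' w ≤ K) (hKX : ∀ b b' w, Xb DH a b b' w ≤ KX) :
    ∑ b, ∑ b', Im φ (Gp S s a b b') ≤
      16 * (vr a * ∑ b, Im φ (fun w => ∑ e, fr (DH b e (H712.lp a w)))) +
        4 * ∑ b, Im φ (fM S s a b) + (n : ℝ) ^ 2 * ((K + 4 * KX) * ε) := by
  have eM : ∀ b b' : Fin n, EG fun w => ∑ i, Mb S s a b w i b' ^ 2 := fun b b' =>
    EG.sum _ fun i _ => (eg_Mb hs i b').pow 2
  have h1 : ∀ b b', Im φ (Gp S s a b b') ≤
      (4 * (Im φ (Xb DH a b b') + Im φ (Xb DH a b' b)) + (K + 4 * KX) * ε) +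
        2 * (Im φ (fun w => ∑ i, Mb S s a b w i b' ^ 2) +
          Im φ (fun w => ∑ i, Mb S s a b' w i b ^ 2)) := by
    intro b b'
    have g1 : Im φ (Gp S s a b b') ≤ Im φ (fun w => Fp S s a b b' w +
        2 * (∑ i, Mb S s a b w i b' ^ 2 + ∑ i, Mb S s a b' w i b ^ 2)) :=
      Im_mono hφ.nn hφ.eg (eg_Gp hs b b')
        ((eg_Fp hs b b').add (((eM b b').add (eM b' b)).const_mul 2)) fun w => Gp_le hs b b' w
    rw [Im_add hφ.eg (eg_Fp hs b b') (((eM b b').add (eM b' b)).const_mul 2), Im_const_mul,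
      Im_add hφ.eg (eM b b') (eM b' b)] at g1
    have g2 := Im_Fp hφ hs hD hK hKX b b'
    linarith
  have h2 : ∑ b, ∑ b', Im φ (Xb DH a b b') =
      2 * (vr a * ∑ b, Im φ (fun w => ∑ e, fr (DH b e (H712.lp a w)))) := by
    rw [Finset.mul_sum, Finset.mul_sum]
    refine Finset.sum_congr rfl fun b _ => ?_
    rw [← Im_sum hφ.eg _ fun b' _ => eg_Xb hD b b']
    have e : ∀ w, ∑ b', Xb DH a b b' w = (2 * vr a) * ∑ e, fr (DH b e (H712.lp a w)) := by
      intro w
      unfold Xb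
      rw [← Finset.mul_sum, sum_edges]
      ring
    rw [Im_congr e, Im_const_mul]
    ring
  have h3 : ∑ b, ∑ b', Im φ (Xb DH a b' b) =
      2 * (vr a * ∑ b, Im φ (fun w => ∑ e, fr (DH b e (H712.lp a w)))) := by
    rw [Finset.sum_comm, h2]
  have h4 : ∑ b, ∑ b', Im φ (fun w => ∑ i, Mb S s a b w i b' ^ 2) = ∑ b, Im φ (fM S s a b) := by
    refine Finset.sum_congr rfl fun b _ => ?_
    rw [← Im_sum hφ.eg _ fun b' _ => eM b b']
    refine Im_congr fun w => ?_
    unfold fM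
    exact Finset.sum_comm
  have h5 : ∑ b, ∑ b', Im φ (fun w => ∑ i, Mb S s a b' w i b ^ 2) = ∑ b, Im φ (fM S s a b) := by
    rw [Finset.sum_comm, h4]
  have h6 : ∑ b, ∑ b', Im φ (Gp S s a b b') ≤ ∑ b, ∑ b',
      ((4 * (Im φ (Xb DH a b b') + Im φ (Xb DH a b' b)) + (K + 4 * KX) * ε) +
        2 * (Im φ (fun w => ∑ i, Mb S s a b w i b' ^ 2) +
          Im φ (fun w => ∑ i, Mb S s a b' w i b ^ 2))) :=
    Finset.sum_le_sum fun b _ => Finset.sum_le_sum fun b' _ => h1 b b'
  refine h6.trans (le_of_eq ?_)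
  simp only [Finset.sum_add_distrib, ← Finset.mul_sum, Finset.sum_const, Finset.card_univ,
    Fintype.card_fin, nsmul_eq_mul]
  rw [h2, h3, h4, h5]
  ring

/-! ### crude bounds and the law of the plan -/

lemma abs_Mb (hs : 0 < s) (b i l : Fin n) (w : K4 (Pair n) → ℝ) : |Mb S s a b w i l| ≤ 1 := by
  have h1 := Av_mono (R := lf (row b)) (eg_Hl (S := S) (a := a) (b := b) hs i l) (EG.const 1)
    (fun w => (abs_le.1 (S.abs_H hs b _ i l)).2) w
  have h2 := Av_mono (R := lf (row b)) (EG.const (-1)) (eg_Hl (S := S) (a := a) (b := b) hs i l)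
    (fun w => (abs_le.1 (S.abs_H hs b _ i l)).1) w
  rw [Av_const] at h1 h2
  exact abs_le.2 ⟨h2, h1⟩

lemma Fp_le (hs : 0 < s) (b b' : Fin n) (w : K4 (Pair n) → ℝ) :
    Fp S s a b b' w ≤ 4 * (n : ℝ) ^ 2 := by
  have h1 : ∀ i l, fD S s a b b' i l w ^ 2 ≤ 4 := by
    intro i l
    unfold fD
    have g1 := abs_le.1 (abs_Mb (S := S) (a := a) hs b i l w)
    have g2 := abs_le.1 (abs_Mb (S := S) (a := a) hs b' i l w)
    split_ifs
    · nlinarith [g1.1, g1.2, g2.1, g2.2]
    · norm_num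
  calc Fp S s a b b' w ≤ ∑ _i : Fin n, ∑ _l : Fin n, (4 : ℝ) :=
        Finset.sum_le_sum fun i _ => Finset.sum_le_sum fun l _ => h1 i l
    _ = 4 * (n : ℝ) ^ 2 := by
        simp only [Finset.sum_const, Finset.card_univ, Fintype.card_fin, nsmul_eq_mul]
        ring

lemma Gp_le4 (hs : 0 < s) (b b' : Fin n) (w : K4 (Pair n) → ℝ) :
    Gp S s a b b' w ≤ 4 * (n : ℝ) ^ 2 := by
  have h1 : ∀ i l, (Mb S s a b w i l - Mb S s a b' w i l) ^ 2 ≤ 4 := by
    intro i l
    have g1 := abs_le.1 (abs_Mb (S := S) (a := a) hs b i l w)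
    have g2 := abs_le.1 (abs_Mb (S := S) (a := a) hs b' i l w)
    nlinarith [g1.1, g1.2, g2.1, g2.2]
  calc Gp S s a b b' w ≤ ∑ _i : Fin n, ∑ _l : Fin n, (4 : ℝ) :=
        Finset.sum_le_sum fun i _ => Finset.sum_le_sum fun l _ => h1 i l
    _ = 4 * (n : ℝ) ^ 2 := by
        simp only [Finset.sum_const, Finset.card_univ, Fintype.card_fin, nsmul_eq_mul]
        ring

lemma Gp_nonneg (b b' : Fin n) (w : K4 (Pair n) → ℝ) : 0 ≤ Gp S s a b b' w :=
  Finset.sum_nonneg fun _ _ => Finset.sum_nonneg fun _ _ => sq_nonneg _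

lemma fM_nonneg (b : Fin n) (w : K4 (Pair n) → ℝ) : 0 ≤ fM S s a b w :=
  Finset.sum_nonneg fun _ _ => Finset.sum_nonneg fun _ _ => sq_nonneg _

/-- the number `Xb` from a bound of the whole gradient of `H_b` -/
lemma Xb_le {KH : ℝ} (hKH : ∀ b z, ∑ e, fr (DH b e z) ≤ KH) (b b' : Fin n)
    (w : K4 (Pair n) → ℝ) : Xb DH a b b' w ≤ vr a * KH := by
  unfold Xb
  refine mul_le_mul_of_nonneg_left (le_trans ?_ (hKH b (H712.lp a w))) (vr_nonneg a)
  exact Finset.sum_le_sum_of_subset_of_nonneg (Finset.subset_univ _)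
    fun e _ _ => H325.fr_nonneg _

/-- the law of the plan has the law change in two rows -/
lemma law2_SG {q : Par} {G : GD (Pair n)} (S : CS n k q.x) (hq : q.OkS) (hG : G.Ok)
    (hr : GRow k q G) (p : ℕ) (hp : ((p : ℝ) + 1) ^ 2 * (18 * q.x ^ 2 * k ^ 2 * n) ≤ 1) :
    Law2 (densG q G S.F) (3 / 2 ^ p * EwG q G S.F (fun _ => 1)) where
  eg := eg_densG S.c11 hq.x0 hG
  nn := densG_nonneg
  ε0 := mul_nonneg (by positivity) (Ew1_pos_SG S hq hG).le
  up b b' f K hf h0 hK := by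
    have h := law_up_SG S hq hG hr b b' p hp hf h0 hK
    have e : 3 * K / 2 ^ p * EwG q G S.F (fun _ => 1) =
      K * (3 / 2 ^ p * EwG q G S.F (fun _ => 1)) := by ring
    rw [e] at h
    exact h
  lo b b' f K hf h0 hK := by
    have h := law_low_SG S hq hG hr b b' p hp hf h0 hK
    have e : 3 * K / 2 ^ p * EwG q G S.F (fun _ => 1) =
      K * (3 / 2 ^ p * EwG q G S.F (fun _ => 1)) := by ring
    rw [e] at h
    exact h

/-- **(V2)** in the law of the plan -/
theorem v2_EwG {q : Par} {G : GD (Pair n)} {S : CS n k q.x} (hq : q.OkS) (hG : G.Ok)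
    (hr : GRow k q G) (p : ℕ) (hp : ((p : ℝ) + 1) ^ 2 * (18 * q.x ^ 2 * k ^ 2 * n) ≤ 1)
    (hs : 0 < s) (hD : DHd S s DH) {KH : ℝ} (hKH : ∀ b z, ∑ e, fr (DH b e z) ≤ KH) :
    ∑ b, ∑ b', EwG q G S.F (Gp S s a b b') ≤
      16 * (vr a * ∑ b, EwG q G S.F (fun w => ∑ e, fr (DH b e (H712.lp a w)))) +
        4 * ∑ b, EwG q G S.F (fM S s a b) +
        (n : ℝ) ^ 2 * ((4 * (n : ℝ) ^ 2 + 4 * (vr a * KH)) *
          (3 / 2 ^ p * EwG q G S.F (fun _ => 1))) :=
  v2_pair (law2_SG S hq hG hr p hp) hs hD (fun b b' w => Fp_le hs b b' w) (Xb_le hKH)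

/-- **(V2) with weights**: any weights `χ b b'` which are at most `X` up to a small mean. -/
theorem v2_wt {φ : (K4 (Pair n) → ℝ) → ℝ} (hφ : EG φ) (h0 : ∀ w, 0 ≤ φ w) (hs : 0 < s)
    {χ : Fin n → Fin n → (K4 (Pair n) → ℝ) → ℝ} (hχ : ∀ b b', EG (χ b b')) {X : ℝ} :
    ∑ b, ∑ b', Im φ (fun w => χ b b' w * Gp S s a b b' w) ≤
      X * ∑ b, ∑ b', Im φ (Gp S s a b b') +
        4 * (n : ℝ) ^ 2 * ∑ b, ∑ b', Im φ (fun w => max (χ b b' w - X) 0) := by
  have em : ∀ b b', EG fun w => max (χ b b' w - X) 0 := by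
    intro b b'
    have h1 : EG fun w => χ b b' w - X := (hχ b b').sub (EG.const X)
    have h2 : (fun w => max (χ b b' w - X) 0) =
        fun w => 1 / 2 * (|χ b b' w - X| + (χ b b' w - X)) := by
      funext w
      rcases le_total 0 (χ b b' w - X) with h | h
      · rw [max_eq_left h, abs_of_nonneg h]; ring
      · rw [max_eq_right h, abs_of_nonpos h]; ring
    rw [h2]
    exact (h1.abs.add h1).const_mul _
  rw [Finset.mul_sum, Finset.mul_sum, ← Finset.sum_add_distrib]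
  refine Finset.sum_le_sum fun b _ => ?_
  rw [Finset.mul_sum, Finset.mul_sum, ← Finset.sum_add_distrib]
  refine Finset.sum_le_sum fun b' _ => ?_
  rw [← Im_const_mul, ← Im_const_mul, ← Im_add hφ ((eg_Gp hs b b').const_mul _)
    ((em b b').const_mul _)]
  refine Im_mono h0 hφ ((hχ b b').mul (eg_Gp hs b b'))
    (((eg_Gp hs b b').const_mul _).add ((em b b').const_mul _)) fun w => ?_
  have g1 := Gp_nonneg (S := S) (s := s) (a := a) b b' w
  have g2 := Gp_le4 (S := S) (a := a) hs b b' w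
  have g3 : χ b b' w ≤ X + max (χ b b' w - X) 0 := by
    have := le_max_left (χ b b' w - X) 0
    linarith
  have g4 : 0 ≤ max (χ b b' w - X) 0 := le_max_right _ _
  have g5 := mul_le_mul_of_nonneg_right g3 g1
  have g6 := mul_le_mul_of_nonneg_left g2 g4
  linarith

/-! ### the exact identity of the row sum -/

/-- **the sum over the rows of a form which depends on the row**, against the square of the
matrix: only pairs of forms are compared. -/
lemma pair_sum (hn : 0 < n) (Z : Fin n → Fin n → Fin n → ℝ) (U : Fin n → Fin n → ℝ) :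
    ∑ b, ∑ i, ∑ l, Z b i l * (U b i * U b l) =
      1 / n * ∑ b, ∑ i, ∑ l, Z b i l * ∑ c, U c i * U c l +
        1 / n * ∑ b, ∑ c, ∑ i, ∑ l, (Z c i l - Z b i l) * (U c i * U c l) := by
  have hn' : (n : ℝ) ≠ 0 := Nat.cast_ne_zero.2 hn.ne'
  have h1 : ∑ b, ∑ i, ∑ l, Z b i l * ∑ c, U c i * U c l =
      ∑ b, ∑ c, ∑ i, ∑ l, Z b i l * (U c i * U c l) := by
    refine Finset.sum_congr rfl fun b _ => ?_
    rw [Finset.sum_comm]
    have : ∀ l, ∑ i, Z b i l * ∑ c, U c i * U c l = ∑ c, ∑ i, Z b i l * (U c i * U c l) := by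
      intro l
      simp only [Finset.mul_sum]
      exact Finset.sum_comm
    simp only [this]
    rw [Finset.sum_comm]
    exact Finset.sum_congr rfl fun c _ => Finset.sum_comm
  have h2 : ∑ b, ∑ c, ∑ i, ∑ l, (Z c i l - Z b i l) * (U c i * U c l) =
      n * (∑ b, ∑ i, ∑ l, Z b i l * (U b i * U b l)) -
        ∑ b, ∑ c, ∑ i, ∑ l, Z b i l * (U c i * U c l) := by
    simp only [sub_mul, Finset.sum_sub_distrib]
    rw [Finset.sum_const, Finset.card_univ, Fintype.card_fin, nsmul_eq_mul]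
  rw [h1, h2]
  field_simp
  ring

end Vale.Agent.P146.H376
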