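import Vale.Agent.P146.H508.F2TN

/-!
P146, plan R2: **change of a frozen weight** `tr (Y_b M_b²)` to the weight `tr (Y C²)` and back,
with bounded functions of the row. The errors are quadratic in the touches `Y_b - Y`, `M_b - C`.
-/

open MeasureTheory ProbabilityTheory Finset

namespace Vale.Agent.P146.H376

open Vale.Agent.P157.Lv Vale.Agent.P146.H712 Vale.Agent.P146.H508.Rho Vale.Agent.P146.H508.Deep

set_option linter.unusedSectionVars false

variable {ι : Type} [Fintype ι] [DecidableEq ι] {R : Finset ι} {n : ℕ} {φ : (ι → ℝ) → ℝ}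
  {B : Type} [Fintype B] {C Y : (ι → ℝ) → Fin n → Fin n → ℝ}
  {Yb M : B → (ι → ℝ) → Fin n → Fin n → ℝ}

/-- **Data of the frozen weights**: `R` = the coordinates which are not deep, `Y = E[C² | deep]`,
`Y_b` psd, a function of the deep position. -/
structure WD (R : Finset ι) (φ : (ι → ℝ) → ℝ) (C Y : (ι → ℝ) → Fin n → Fin n → ℝ)
    (Yb M : B → (ι → ℝ) → Fin n → Fin n → ℝ) : Prop where
  eφ : EG φ
  h0 : ∀ w, 0 ≤ φ w
  hC : ∀ i l, EG fun w => C w i l
  hs : ∀ w i l, C w i l = C w l i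
  hY : ∀ i l, EG fun w => Y w i l
  hYb : ∀ b i l, EG fun w => Yb b w i l
  hM : ∀ b i l, EG fun w => M b w i l
  hP0 : ∀ w, Ps (Y w)
  hP : ∀ b w, Ps (Yb b w)
  hYs : ∀ b w i l, Yb b w i l = Yb b w l i
  hi : ∀ b i l, Ind R fun w => Yb b w i l - Y w i l
  hYc : ∀ w i j, Av R (fun w => φ w * ∑ l, C w i l * C w l j) w = Y w i j

/-- the touches of the deep matrix -/
noncomputable def DY (Y : (ι → ℝ) → Fin n → Fin n → ℝ)
    (Yb : B → (ι → ℝ) → Fin n → Fin n → ℝ) : ℝ :=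
  ∫ w, ∑ b, ∑ i, ∑ j, (Yb b w i j - Y w i j) ^ 2 ∂(gI ι)

/-- the touches of the matrix in the seminorm of the frozen deep matrix -/
noncomputable def XC (φ : (ι → ℝ) → ℝ) (C : (ι → ℝ) → Fin n → Fin n → ℝ)
    (Yb M : B → (ι → ℝ) → Fin n → Fin n → ℝ) : ℝ :=
  ∫ w, φ w * ∑ b, qf (Yb b w) (fun i l => C w i l - M b w i l)
    (fun i l => C w i l - M b w i l) ∂(gI ι)

lemma DY_nonneg : 0 ≤ DY Y Yb :=
  integral_nonneg fun _ => Finset.sum_nonneg fun _ _ => Finset.sum_nonneg fun _ _ =>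
    Finset.sum_nonneg fun _ _ => sq_nonneg _

lemma XC_nonneg (h : WD R φ C Y Yb M) : 0 ≤ XC φ C Yb M :=
  integral_nonneg fun w => mul_nonneg (h.h0 w) (Finset.sum_nonneg fun b _ =>
    qf_nonneg (h.hP b w) _)

lemma qf_neg (P A : Fin n → Fin n → ℝ) (D : Fin n → Fin n → ℝ) :
    qf P (fun i l => A i l - D i l) (fun i l => A i l - D i l) =
      qf P (fun i l => D i l - A i l) (fun i l => D i l - A i l) := by
  unfold qf
  refine Finset.sum_congr rfl fun i _ => Finset.sum_congr rfl fun j _ => ?_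
  congr 1
  exact Finset.sum_congr rfl fun l _ => by ring

namespace WD

/-- the second factor of the comparison -/
lemma fac (h : WD R φ C Y Yb M) {g : B → (ι → ℝ) → ℝ} {G : ℝ} (hg : ∀ b, EG (g b))
    (hg0 : ∀ b w, 0 ≤ g b w) (hG : ∀ b w, g b w ≤ G) :
    ∫ w, φ w * ∑ b, g b w ^ 2 * ∑ i, ∑ j, (∑ l, C w i l * C w l j) *
        Av R (fun w => φ w * ∑ l, C w i l * C w l j) w ∂(gI ι) ≤
      G * ∫ w, φ w * (qf (Y w) (C w) (C w) * ∑ b, g b w) ∂(gI ι) := by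
  have e : ∀ w, ∑ i, ∑ j, (∑ l, C w i l * C w l j) *
      Av R (fun w => φ w * ∑ l, C w i l * C w l j) w = qf (Y w) (C w) (C w) := by
    intro w
    rw [qf_symm (h.hs w)]
    refine Finset.sum_congr rfl fun i _ => Finset.sum_congr rfl fun j _ => ?_
    rw [h.hYc, mul_comm]
  simp only [e]
  have eq0 : EG fun w => qf (Y w) (C w) (C w) * ∑ b, g b w :=
    (eg_qf h.hY h.hC h.hC).mul (EG.sum _ fun b _ => hg b)
  rw [← integral_const_mul]
  refine integral_mono (h.eφ.mul (EG.sum _ fun b _ => ((hg b).pow 2).mul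
    (eg_qf h.hY h.hC h.hC))).integrable ((h.eφ.mul eq0).const_mul G).integrable fun w => ?_
  have q0 := qf_nonneg (h.hP0 w) (C w)
  have a1 : ∑ b, g b w ^ 2 * qf (Y w) (C w) (C w) ≤ G * (qf (Y w) (C w) (C w) * ∑ b, g b w) := by
    rw [Finset.mul_sum, Finset.mul_sum]
    refine Finset.sum_le_sum fun b _ => ?_
    have := mul_le_mul_of_nonneg_right (hG b w) (mul_nonneg (hg0 b w) q0)
    calc g b w ^ 2 * qf (Y w) (C w) (C w) = g b w * (g b w * qf (Y w) (C w) (C w)) := by ring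
      _ ≤ G * (g b w * qf (Y w) (C w) (C w)) := this
      _ = _ := by ring
  refine (mul_le_mul_of_nonneg_left a1 (h.h0 w)).trans (le_of_eq ?_)
  ring

lemma two_sqrt {D G W : ℝ} (hD : 0 ≤ D) (hG : 0 ≤ G) (hW : 0 ≤ W) :
    2 * (√D * √(G * W)) ≤ G * D + W := by
  have h1 : √D * √(G * W) = √(G * D) * √W := by
    rw [← Real.sqrt_mul hD, ← Real.sqrt_mul (mul_nonneg hG hD)]
    congr 1
    ring
  rw [h1]
  have h2 := Real.sq_sqrt (mul_nonneg hG hD)
  have h3 := Real.sq_sqrt hW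
  nlinarith [sq_nonneg (√(G * D) - √W)]

/-- **frozen weight ≤ 3 weight + errors** -/
theorem up (h : WD R φ C Y Yb M) {g : B → (ι → ℝ) → ℝ} {G : ℝ} (hG0 : 0 ≤ G)
    (hg : ∀ b, EG (g b)) (hg0 : ∀ b w, 0 ≤ g b w) (hG : ∀ b w, g b w ≤ G) :
    ∫ w, φ w * ∑ b, qf (Yb b w) (M b w) (M b w) * g b w ∂(gI ι) ≤
      3 * (∫ w, φ w * (qf (Y w) (C w) (C w) * ∑ b, g b w) ∂(gI ι)) +
        G * (DY Y Yb + 2 * XC φ C Yb M) := by
  have key := txb h.eφ h.h0 h.hC h.hs h.hY h.hYb h.hM h.hP h.hYs h.hi hg hg0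
  obtain ⟨W, hW⟩ : ∃ W, W = ∫ w, φ w * (qf (Y w) (C w) (C w) * ∑ b, g b w) ∂(gI ι) := ⟨_, rfl⟩
  have hf := h.fac hg hg0 hG
  rw [← hW] at key hf ⊢
  have hW0 : 0 ≤ W := by
    rw [hW]
    exact integral_nonneg fun w => mul_nonneg (h.h0 w) (mul_nonneg (qf_nonneg (h.hP0 w) _)
      (Finset.sum_nonneg fun b _ => hg0 b w))
  have hD0 : 0 ≤ DY Y Yb := DY_nonneg
  have e1 := mul_le_mul_of_nonneg_left (Real.sqrt_le_sqrt hf) (Real.sqrt_nonneg (DY Y Yb))
  have e2 := two_sqrt hD0 hG0 hW0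
  have eD : ∀ b, EG fun w => qf (Yb b w) (fun i l => C w i l - M b w i l)
        (fun i l => C w i l - M b w i l) := fun b =>
    eg_qf (h.hYb b) (fun i l => (h.hC i l).sub (h.hM b i l))
      (fun i l => (h.hC i l).sub (h.hM b i l))
  have e3 : ∫ w, φ w * ∑ b, qf (Yb b w) (fun i l => C w i l - M b w i l)
        (fun i l => C w i l - M b w i l) * g b w ∂(gI ι) ≤ G * XC φ C Yb M := by
    unfold XC
    rw [← integral_const_mul]
    refine integral_mono (h.eφ.mul (EG.sum _ fun b _ => (eD b).mul (hg b))).integrable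
      ((h.eφ.mul (EG.sum _ fun b _ => eD b)).const_mul G).integrable fun w => ?_
    have a1 : ∑ b, qf (Yb b w) (fun i l => C w i l - M b w i l)
        (fun i l => C w i l - M b w i l) * g b w ≤ G * ∑ b, qf (Yb b w)
          (fun i l => C w i l - M b w i l) (fun i l => C w i l - M b w i l) := by
      rw [Finset.mul_sum]
      refine Finset.sum_le_sum fun b _ => ?_
      rw [mul_comm G]
      exact mul_le_mul_of_nonneg_left (hG b w) (qf_nonneg (h.hP b w) _)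
    refine (mul_le_mul_of_nonneg_left a1 (h.h0 w)).trans (le_of_eq ?_)
    ring
  unfold DY at e1 e2 hD0 ⊢
  linarith

/-- **weight ≤ 4 frozen weight + errors** -/
theorem dn (h : WD R φ C Y Yb M) {g : B → (ι → ℝ) → ℝ} {G : ℝ} (hG0 : 0 ≤ G)
    (hg : ∀ b, EG (g b)) (hg0 : ∀ b w, 0 ≤ g b w) (hG : ∀ b w, g b w ≤ G) :
    ∫ w, φ w * (qf (Y w) (C w) (C w) * ∑ b, g b w) ∂(gI ι) ≤
      4 * (∫ w, φ w * ∑ b, qf (Yb b w) (M b w) (M b w) * g b w ∂(gI ι)) +
        G * (DY Y Yb + 4 * XC φ C Yb M) := by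
  have key := (abs_le.1 (tcb h.eφ h.h0 h.hC h.hs h.hY h.hYb h.hi hg)).1
  obtain ⟨W, hW⟩ : ∃ W, W = ∫ w, φ w * (qf (Y w) (C w) (C w) * ∑ b, g b w) ∂(gI ι) := ⟨_, rfl⟩
  have hf := h.fac hg hg0 hG
  rw [← hW] at key hf ⊢
  have hW0 : 0 ≤ W := by
    rw [hW]
    exact integral_nonneg fun w => mul_nonneg (h.h0 w) (mul_nonneg (qf_nonneg (h.hP0 w) _)
      (Finset.sum_nonneg fun b _ => hg0 b w))
  have hD0 : 0 ≤ DY Y Yb := DY_nonneg
  have e1 := mul_le_mul_of_nonneg_left (Real.sqrt_le_sqrt hf) (Real.sqrt_nonneg (DY Y Yb))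
  have e2 := two_sqrt hD0 hG0 hW0
  have eD : ∀ b, EG fun w => qf (Yb b w) (fun i l => C w i l - M b w i l)
        (fun i l => C w i l - M b w i l) := fun b =>
    eg_qf (h.hYb b) (fun i l => (h.hC i l).sub (h.hM b i l))
      (fun i l => (h.hC i l).sub (h.hM b i l))
  have eM : ∀ b, EG fun w => qf (Yb b w) (M b w) (M b w) := fun b =>
    eg_qf (h.hYb b) (h.hM b) (h.hM b)
  have e3 : ∫ w, φ w * ∑ b, qf (Yb b w) (C w) (C w) * g b w ∂(gI ι) ≤
      2 * (∫ w, φ w * ∑ b, qf (Yb b w) (M b w) (M b w) * g b w ∂(gI ι)) +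
        2 * (G * XC φ C Yb M) := by
    unfold XC
    rw [← mul_assoc 2 G, ← integral_const_mul, ← integral_const_mul (2 * G),
      ← integral_add ((h.eφ.mul (EG.sum _ fun b _ => (eM b).mul (hg b))).const_mul 2).integrable
      ((h.eφ.mul (EG.sum _ fun b _ => eD b)).const_mul (2 * G)).integrable]
    refine integral_mono (h.eφ.mul (EG.sum _ fun b _ =>
      (eg_qf (h.hYb b) h.hC h.hC).mul (hg b))).integrable
      (((h.eφ.mul (EG.sum _ fun b _ => (eM b).mul (hg b))).const_mul 2).add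
      ((h.eφ.mul (EG.sum _ fun b _ => eD b)).const_mul (2 * G))).integrable fun w => ?_
    have a1 : ∑ b, qf (Yb b w) (C w) (C w) * g b w ≤
        2 * (∑ b, qf (Yb b w) (M b w) (M b w) * g b w) + (2 * G) * ∑ b, qf (Yb b w)
          (fun i l => C w i l - M b w i l) (fun i l => C w i l - M b w i l) := by
      rw [Finset.mul_sum, Finset.mul_sum, ← Finset.sum_add_distrib]
      refine Finset.sum_le_sum fun b _ => ?_
      have b1 := qf_two (M := C w) (C := M b w) (h.hP b w) (h.hYs b w)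
      rw [qf_neg (Yb b w) (M b w) (C w)] at b1
      have b2 := mul_le_mul_of_nonneg_right b1 (hg0 b w)
      have b3 := mul_le_mul_of_nonneg_left (hG b w) (qf_nonneg (h.hP b w)
        fun i l => C w i l - M b w i l)
      nlinarith
    refine (mul_le_mul_of_nonneg_left a1 (h.h0 w)).trans (le_of_eq ?_)
    ring
  unfold DY at e1 e2 hD0 ⊢
  linarith

/-- the weight `tr (Y_b C²)` against the weight -/
lemma mid (h : WD R φ C Y Yb M) {g : B → (ι → ℝ) → ℝ} {G : ℝ} (hG0 : 0 ≤ G)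
    (hg : ∀ b, EG (g b)) (hg0 : ∀ b w, 0 ≤ g b w) (hG : ∀ b w, g b w ≤ G) :
    ∫ w, φ w * ∑ b, qf (Yb b w) (C w) (C w) * g b w ∂(gI ι) ≤
      2 * (∫ w, φ w * (qf (Y w) (C w) (C w) * ∑ b, g b w) ∂(gI ι)) + G * DY Y Yb := by
  have key := (abs_le.1 (tcb h.eφ h.h0 h.hC h.hs h.hY h.hYb h.hi hg)).2
  obtain ⟨W, hW⟩ : ∃ W, W = ∫ w, φ w * (qf (Y w) (C w) (C w) * ∑ b, g b w) ∂(gI ι) := ⟨_, rfl⟩
  have hf := h.fac hg hg0 hG
  rw [← hW] at key hf ⊢
  have hW0 : 0 ≤ W := by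
    rw [hW]
    exact integral_nonneg fun w => mul_nonneg (h.h0 w) (mul_nonneg (qf_nonneg (h.hP0 w) _)
      (Finset.sum_nonneg fun b _ => hg0 b w))
  have hD0 : 0 ≤ DY Y Yb := DY_nonneg
  have e1 := mul_le_mul_of_nonneg_left (Real.sqrt_le_sqrt hf) (Real.sqrt_nonneg (DY Y Yb))
  have e2 := two_sqrt hD0 hG0 hW0
  have e4 : 0 ≤ G * DY Y Yb := mul_nonneg hG0 hD0
  unfold DY at e1 e2 hD0 e4 ⊢
  linarith

/-- Cauchy-Schwarz with a density -/
lemma dens_cs (hφ : EG φ) (h0 : ∀ w, 0 ≤ φ w) {f g : B → (ι → ℝ) → ℝ} (hf : ∀ b, EG (f b))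
    (hg : ∀ b, EG (g b)) :
    |∫ w, φ w * ∑ b, f b w * g b w ∂(gI ι)| ≤
      √(∫ w, φ w * ∑ b, f b w ^ 2 ∂(gI ι)) * √(∫ w, φ w * ∑ b, g b w ^ 2 ∂(gI ι)) := by
  obtain ⟨α, hα⟩ : ∃ α, α = ∫ w, φ w * ∑ b, f b w ^ 2 ∂(gI ι) := ⟨_, rfl⟩
  obtain ⟨β, hβ⟩ : ∃ β, β = ∫ w, φ w * ∑ b, f b w * g b w ∂(gI ι) := ⟨_, rfl⟩
  obtain ⟨γ, hγ⟩ : ∃ γ, γ = ∫ w, φ w * ∑ b, g b w ^ 2 ∂(gI ι) := ⟨_, rfl⟩
  rw [← hα, ← hβ, ← hγ]
  have e1 : EG fun w => φ w * ∑ b, f b w ^ 2 := hφ.mul (EG.sum _ fun b _ => (hf b).pow 2)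
  have e2 : EG fun w => φ w * ∑ b, f b w * g b w :=
    hφ.mul (EG.sum _ fun b _ => (hf b).mul (hg b))
  have e3 : EG fun w => φ w * ∑ b, g b w ^ 2 := hφ.mul (EG.sum _ fun b _ => (hg b).pow 2)
  have hα0 : 0 ≤ α := by
    rw [hα]
    exact integral_nonneg fun w => mul_nonneg (h0 w) (Finset.sum_nonneg fun b _ => sq_nonneg _)
  have hγ0 : 0 ≤ γ := by
    rw [hγ]
    exact integral_nonneg fun w => mul_nonneg (h0 w) (Finset.sum_nonneg fun b _ => sq_nonneg _)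
  have key : ∀ t : ℝ, 0 ≤ γ * (t * t) + 2 * β * t + α := by
    intro t
    have h1 : ∫ w, φ w * ∑ b, (f b w + t * g b w) ^ 2 ∂(gI ι) =
        γ * (t * t) + 2 * β * t + α := by
      have e4 : ∀ w, φ w * ∑ b, (f b w + t * g b w) ^ 2 =
          φ w * (∑ b, f b w ^ 2) + (2 * t) * (φ w * ∑ b, f b w * g b w) +
            (t * t) * (φ w * ∑ b, g b w ^ 2) := by
        intro w
        have e5 : ∑ b, (f b w + t * g b w) ^ 2 = (∑ b, f b w ^ 2) +
            (2 * t) * (∑ b, f b w * g b w) + (t * t) * ∑ b, g b w ^ 2 := by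
          rw [Finset.mul_sum, Finset.mul_sum, ← Finset.sum_add_distrib, ← Finset.sum_add_distrib]
          exact Finset.sum_congr rfl fun b _ => by ring
        rw [e5]
        ring
      simp only [e4]
      rw [integral_add (e1.add (e2.const_mul _)).integrable (e3.const_mul _).integrable,
        integral_add e1.integrable (e2.const_mul _).integrable, integral_const_mul,
        integral_const_mul, ← hα, ← hβ, ← hγ]
      ring
    rw [← h1]
    exact integral_nonneg fun w => mul_nonneg (h0 w) (Finset.sum_nonneg fun b _ => sq_nonneg _)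
  have hd := discrim_le_zero key
  unfold discrim at hd
  refine abs_le_of_sq_le_sq ?_ (mul_nonneg (Real.sqrt_nonneg _) (Real.sqrt_nonneg _))
  rw [mul_pow, Real.sq_sqrt hα0, Real.sq_sqrt hγ0]
  nlinarith

/-- **The difference of the two weights**, signed functions. -/
theorem df (h : WD R φ C Y Yb M) {g : B → (ι → ℝ) → ℝ} {G : ℝ}
    (hg : ∀ b, EG (g b)) (hG : ∀ b w, g b w ^ 2 ≤ G ^ 2) :
    |∫ w, φ w * ∑ b, qf (Yb b w) (M b w) (M b w) * g b w ∂(gI ι) -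
      ∫ w, φ w * (qf (Y w) (C w) (C w) * ∑ b, g b w) ∂(gI ι)| ≤
      5 * (√(DY Y Yb + XC φ C Yb M) *
        √((∫ w, φ w * (qf (Y w) (C w) (C w) * ∑ b, g b w ^ 2) ∂(gI ι)) +
          G ^ 2 * (DY Y Yb + XC φ C Yb M))) := by
  obtain ⟨W, hW⟩ : ∃ W, W = ∫ w, φ w * (qf (Y w) (C w) (C w) * ∑ b, g b w ^ 2) ∂(gI ι) :=
    ⟨_, rfl⟩
  have hG0 : 0 ≤ G ^ 2 := sq_nonneg G
  have eg2 : ∀ b, EG fun w => g b w ^ 2 := fun b => (hg b).pow 2
  have g20 : ∀ b w, 0 ≤ g b w ^ 2 := fun b w => sq_nonneg _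
  have hW0 : 0 ≤ W := by
    rw [hW]
    exact integral_nonneg fun w => mul_nonneg (h.h0 w) (mul_nonneg (qf_nonneg (h.hP0 w) _)
      (Finset.sum_nonneg fun b _ => g20 b w))
  have hD0 : 0 ≤ DY Y Yb := DY_nonneg
  have hX0 := XC_nonneg h
  have k1 := tcb h.eφ h.h0 h.hC h.hs h.hY h.hYb h.hi hg
  have e0 : ∀ w, ∑ i, ∑ j, (∑ l, C w i l * C w l j) *
      Av R (fun w => φ w * ∑ l, C w i l * C w l j) w = qf (Y w) (C w) (C w) := by
    intro w
    rw [qf_symm (h.hs w)]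
    refine Finset.sum_congr rfl fun i _ => Finset.sum_congr rfl fun j _ => ?_
    rw [h.hYc, mul_comm]
  have e0' : ∀ w, φ w * ∑ b, g b w ^ 2 * ∑ i, ∑ j, (∑ l, C w i l * C w l j) *
      Av R (fun w => φ w * ∑ l, C w i l * C w l j) w =
      φ w * (qf (Y w) (C w) (C w) * ∑ b, g b w ^ 2) := by
    intro w
    rw [e0 w, ← Finset.sum_mul, mul_comm (∑ b, g b w ^ 2)]
  simp only [e0'] at k1
  rw [← hW] at k1 ⊢
  -- the matrix part
  have eD : ∀ b, EG fun w => qf (Yb b w) (fun i l => M b w i l - C w i l)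
        (fun i l => M b w i l - C w i l) := fun b =>
    eg_qf (h.hYb b) (fun i l => (h.hM b i l).sub (h.hC i l))
      (fun i l => (h.hM b i l).sub (h.hC i l))
  have eM : ∀ b, EG fun w => qf (Yb b w) (M b w) (M b w) := fun b =>
    eg_qf (h.hYb b) (h.hM b) (h.hM b)
  have eC : ∀ b, EG fun w => qf (Yb b w) (C w) (C w) := fun b => eg_qf (h.hYb b) h.hC h.hC
  have nM : ∀ b w, 0 ≤ qf (Yb b w) (M b w) (M b w) := fun b w => qf_nonneg (h.hP b w) _
  have nC : ∀ b w, 0 ≤ qf (Yb b w) (C w) (C w) := fun b w => qf_nonneg (h.hP b w) _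
  have nD : ∀ b w, 0 ≤ qf (Yb b w) (fun i l => M b w i l - C w i l)
    (fun i l => M b w i l - C w i l) := fun b w => qf_nonneg (h.hP b w) _
  have es : ∀ {f : (ι → ℝ) → ℝ}, EG f → (∀ w, 0 ≤ f w) → EG fun w => √(f w) := by
    intro f hf _
    exact Vale.Agent.P146.H191.eg_sqrt hf
  have q1 : EG fun w => φ w * ∑ b, qf (Yb b w) (M b w) (M b w) * g b w :=
    h.eφ.mul (EG.sum _ fun b _ => (eM b).mul (hg b))
  have q2 : EG fun w => φ w * ∑ b, qf (Yb b w) (C w) (C w) * g b w :=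
    h.eφ.mul (EG.sum _ fun b _ => (eC b).mul (hg b))
  have k2 : |∫ w, φ w * ∑ b, qf (Yb b w) (M b w) (M b w) * g b w ∂(gI ι) -
      ∫ w, φ w * ∑ b, qf (Yb b w) (C w) (C w) * g b w ∂(gI ι)| ≤
      ∫ w, φ w * ∑ b, √(qf (Yb b w) (fun i l => M b w i l - C w i l)
        (fun i l => M b w i l - C w i l)) * ((√(qf (Yb b w) (M b w) (M b w)) +
          √(qf (Yb b w) (C w) (C w))) * |g b w|) ∂(gI ι) := by
    rw [← integral_sub q1.integrable q2.integrable]
    refine (abs_integral_le_integral_abs).trans (integral_mono (q1.sub q2).abs.integrable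
      (h.eφ.mul (EG.sum _ fun b _ => (es (eD b) (nD b)).mul (((es (eM b) (nM b)).add
        (es (eC b) (nC b))).mul (hg b).abs))).integrable fun w => ?_)
    show |φ w * (∑ b, qf (Yb b w) (M b w) (M b w) * g b w) -
      φ w * ∑ b, qf (Yb b w) (C w) (C w) * g b w| ≤ _
    rw [← mul_sub, abs_mul, abs_of_nonneg (h.h0 w), ← Finset.sum_sub_distrib]
    refine mul_le_mul_of_nonneg_left ((Finset.abs_sum_le_sum_abs _ _).trans
      (Finset.sum_le_sum fun b _ => ?_)) (h.h0 w)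
    rw [← sub_mul, abs_mul, ← mul_assoc]
    exact mul_le_mul_of_nonneg_right (qf_sq_sub (h.hP b w) (h.hYs b w)) (abs_nonneg _)
  have k3 := dens_cs h.eφ h.h0 (f := fun b w => √(qf (Yb b w)
        (fun i l => M b w i l - C w i l) (fun i l => M b w i l - C w i l)))
    (g := fun b w => (√(qf (Yb b w) (M b w) (M b w)) +
          √(qf (Yb b w) (C w) (C w))) * |g b w|) (fun b => es (eD b) (nD b))
    (fun b => ((es (eM b) (nM b)).add (es (eC b) (nC b))).mul (hg b).abs)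
  have k4 : ∫ w, φ w * ∑ b, √(qf (Yb b w) (fun i l => M b w i l - C w i l)
        (fun i l => M b w i l - C w i l)) ^ 2 ∂(gI ι) = XC φ C Yb M := by
    unfold XC
    refine integral_congr_ae (ae_of_all _ fun w => ?_)
    show φ w * _ = φ w * _
    congr 1
    refine Finset.sum_congr rfl fun b _ => ?_
    rw [Real.sq_sqrt (nD b w), qf_neg]
  have k5 : ∫ w, φ w * ∑ b, ((√(qf (Yb b w) (M b w) (M b w)) +
          √(qf (Yb b w) (C w) (C w))) * |g b w|) ^ 2 ∂(gI ι) ≤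
      6 * (2 * W + G ^ 2 * DY Y Yb) + 4 * (G ^ 2 * XC φ C Yb M) := by
    have m1 := h.mid hG0 eg2 g20 hG
    rw [← hW] at m1
    have r1 : EG fun w => φ w * ∑ b, qf (Yb b w) (C w) (C w) * g b w ^ 2 :=
      h.eφ.mul (EG.sum _ fun b _ => (eC b).mul (eg2 b))
    have r2 : EG fun w => φ w * ∑ b, qf (Yb b w) (fun i l => C w i l - M b w i l)
        (fun i l => C w i l - M b w i l) := h.eφ.mul (EG.sum _ fun b _ =>
      eg_qf (h.hYb b) (fun i l => (h.hC i l).sub (h.hM b i l))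
      (fun i l => (h.hC i l).sub (h.hM b i l)))
    have m2 : ∫ w, φ w * ∑ b, ((√(qf (Yb b w) (M b w) (M b w)) +
          √(qf (Yb b w) (C w) (C w))) * |g b w|) ^ 2 ∂(gI ι) ≤
        ∫ w, (6 * (φ w * ∑ b, qf (Yb b w) (C w) (C w) * g b w ^ 2) + 4 * G ^ 2 *
          (φ w * ∑ b, qf (Yb b w) (fun i l => C w i l - M b w i l)
            (fun i l => C w i l - M b w i l))) ∂(gI ι) := by
      refine integral_mono (h.eφ.mul (EG.sum _ fun b _ => (((es (eM b) (nM b)).add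
        (es (eC b) (nC b))).mul (hg b).abs).pow 2)).integrable
        ((r1.const_mul 6).add (r2.const_mul _)).integrable fun w => ?_
      have a1 : ∑ b, ((√(qf (Yb b w) (M b w) (M b w)) +
          √(qf (Yb b w) (C w) (C w))) * |g b w|) ^ 2 ≤
          6 * (∑ b, qf (Yb b w) (C w) (C w) * g b w ^ 2) + 4 * G ^ 2 *
          ∑ b, qf (Yb b w) (fun i l => C w i l - M b w i l)
            (fun i l => C w i l - M b w i l) := by
        rw [Finset.mul_sum, Finset.mul_sum, ← Finset.sum_add_distrib]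
        refine Finset.sum_le_sum fun b _ => ?_
        have b1 := qf_two (M := M b w) (C := C w) (h.hP b w) (h.hYs b w)
        have b2 := Real.sq_sqrt (nM b w)
        have b3 := Real.sq_sqrt (nC b w)
        have b4 : (√(qf (Yb b w) (M b w) (M b w)) + √(qf (Yb b w) (C w) (C w))) ^ 2 ≤
            2 * qf (Yb b w) (M b w) (M b w) + 2 * qf (Yb b w) (C w) (C w) := by
          nlinarith [sq_nonneg (√(qf (Yb b w) (M b w) (M b w)) - √(qf (Yb b w) (C w) (C w)))]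
        rw [mul_pow, sq_abs]
        have b5 := mul_le_mul_of_nonneg_right b4 (g20 b w)
        have b6 := mul_le_mul_of_nonneg_right b1 (g20 b w)
        have b7 := mul_le_mul_of_nonneg_left (hG b w) (qf_nonneg (h.hP b w)
          fun i l => C w i l - M b w i l)
        nlinarith
      refine (mul_le_mul_of_nonneg_left a1 (h.h0 w)).trans (le_of_eq ?_)
      ring
    rw [integral_add (r1.const_mul 6).integrable (r2.const_mul _).integrable,
      integral_const_mul, integral_const_mul] at m2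
    unfold XC
    linarith
  rw [k4] at k3
  have a0 : 0 ≤ DY Y Yb + XC φ C Yb M := add_nonneg hD0 hX0
  have z1 : √(DY Y Yb) * √W ≤ √(DY Y Yb + XC φ C Yb M) *
      √(W + G ^ 2 * (DY Y Yb + XC φ C Yb M)) :=
    mul_le_mul (Real.sqrt_le_sqrt (by linarith)) (Real.sqrt_le_sqrt (by
      have := mul_nonneg hG0 a0
      linarith)) (Real.sqrt_nonneg _) (Real.sqrt_nonneg _)
  have z2 : √(XC φ C Yb M) * √(∫ w, φ w * ∑ b, ((√(qf (Yb b w) (M b w) (M b w)) +
          √(qf (Yb b w) (C w) (C w))) * |g b w|) ^ 2 ∂(gI ι)) ≤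
      √(DY Y Yb + XC φ C Yb M) * (4 * √(W + G ^ 2 * (DY Y Yb + XC φ C Yb M))) := by
    refine mul_le_mul (Real.sqrt_le_sqrt (by linarith)) ?_ (Real.sqrt_nonneg _)
      (Real.sqrt_nonneg _)
    have y1 : (4 : ℝ) * √(W + G ^ 2 * (DY Y Yb + XC φ C Yb M)) =
        √(16 * (W + G ^ 2 * (DY Y Yb + XC φ C Yb M))) := by
      rw [Real.sqrt_mul (by norm_num), show (16 : ℝ) = 4 ^ 2 by norm_num,
        Real.sqrt_sq (by norm_num)]
    rw [y1]
    refine Real.sqrt_le_sqrt (k5.trans ?_)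
    have y2 := mul_nonneg hG0 hD0
    have y3 := mul_nonneg hG0 hX0
    nlinarith
  have z3 := abs_sub_le (∫ w, φ w * ∑ b, qf (Yb b w) (M b w) (M b w) * g b w ∂(gI ι))
    (∫ w, φ w * ∑ b, qf (Yb b w) (C w) (C w) * g b w ∂(gI ι))
    (∫ w, φ w * (qf (Y w) (C w) (C w) * ∑ b, g b w) ∂(gI ι))
  have z4 := (k2.trans (le_abs_self _)).trans k3
  unfold DY at z1 z2 ⊢
  linarith

end WD

end Vale.Agent.P146.H376
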