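import Vale.Agent.P146.H376.BFl
import Vale.Agent.P146.H376.WCh

/-!
P146, plan R2, the row Mis, (V2) **with the frozen scalar weight** `χ_b = tr (Y_b M_b²)`: the row
averages of the responses of two rows are close in the mean with the weight `χ`.
-/

open MeasureTheory ProbabilityTheory Finset Matrix

namespace Vale.Agent.P146.H376

open Vale.Agent.P157.Lv Vale.Agent.P146.H425 Vale.Agent.P146.H325
  Vale.Agent.P146.H712 Vale.Agent.P146.R1 Vale.Agent.P146.R1C Vale.Agent.P146.H706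
  Vale.Agent.P146.R1S Vale.Agent.P146.H191 Vale.Agent.P146.H364
open Vale.Agent.P146.H332
open Vale.Agent.P146.H508.Rho (qf Ps qf_nonneg eg_qf)

set_option linter.unusedSectionVars false

variable {n : ℕ} {k x s : ℝ} {S : CS n k x} {a : Fin 4 → ℝ}
  {DH : Fin n → Pair n → (Pair n → ℝ) → Matrix (Fin n) (Fin n) ℝ}

/-! ### one row at a time -/

lemma lf2_self (b : Fin n) : R2 b b = lf (row b) := by unfold R2; rw [Finset.union_self]

lemma lf2_comm (b b' : Fin n) : R2 b' b = R2 b b' := by unfold R2; rw [Finset.union_comm]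

/-- the mean of `M_b` over the row `b'` -/
lemma Av_Mb_row (hs : 0 < s) (b b' i j : Fin n) (w : K4 (Pair n) → ℝ) :
    Av (lf (row b')) (fun w => Mb S s a b w i j) w =
      Av (R2 b b') (fun w => Mb S s a b w i j) w := by
  have e1 : Av (R2 b b') (fun w => Mb S s a b w i j) w =
      Av (R2 b b') (fun w => S.H s b (H712.lp a w) i j) w :=
    H326.Av_Av (row_sub b b') (eg_Hl hs i j) w
  have e2 : Av (lf (row b')) (fun w => Mb S s a b w i j) w =
      Av (lf (row b') ∪ lf (row b)) (fun w => S.H s b (H712.lp a w) i j) w :=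
    H712.Av_Av (eg_Hl hs i j) _ _ w
  have e3 : lf (row b') ∪ lf (row b) = R2 b b' := by
    unfold R2
    rw [lf_union, Finset.union_comm]
  rw [e1, e2, e3]

lemma ind_ext {R : Finset (K4 (Pair n))} {F : (K4 (Pair n) → ℝ) → ℝ} (h : Ind R F)
    {u v : K4 (Pair n) → ℝ} (huv : ∀ e, e ∉ R → u e = v e) : F u = F v := by
  have h1 := h u v
  have h2 : sw R u v = v := by
    funext e
    unfold sw
    by_cases he : e ∈ R
    · rw [if_pos he]
    · rw [if_neg he, huv e he]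
  rw [h2] at h1
  exact h1.symm

/-- averages over other rows keep the independence of a row -/
lemma ind_Av_of {R R' : Finset (K4 (Pair n))} {F : (K4 (Pair n) → ℝ) → ℝ} (h : Ind R F) :
    Ind R (Av R' F) := by
  intro z w
  unfold Av
  congr 1
  funext v
  refine ind_ext h fun e he => ?_
  unfold sw
  by_cases h' : e ∈ R'
  · rw [if_pos h', if_pos h']
  · rw [if_neg h', if_neg h', if_neg he]

/-- The fluctuation of `M_b` in the row `b'`. -/
noncomputable def F1 (S : CS n k x) (s : ℝ) (a : Fin 4 → ℝ) (b b' : Fin n)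
    (w : K4 (Pair n) → ℝ) : ℝ :=
  ∑ i, ∑ l, (Mb S s a b w i l - Av (lf (row b')) (fun w => Mb S s a b w i l) w) ^ 2

lemma eg_F1 (hs : 0 < s) (b b' : Fin n) : EG (F1 S s a b b') :=
  EG.sum _ fun i _ => EG.sum _ fun l _ => ((eg_Mb hs i l).sub (eg_Av _ (eg_Mb hs i l))).pow 2

lemma F1_nonneg (b b' : Fin n) (w : K4 (Pair n) → ℝ) : 0 ≤ F1 S s a b b' w :=
  Finset.sum_nonneg fun _ _ => Finset.sum_nonneg fun _ _ => sq_nonneg _

lemma F1_le (hs : 0 < s) (b b' : Fin n) (w : K4 (Pair n) → ℝ) :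
    F1 S s a b b' w ≤ 4 * (n : ℝ) ^ 2 := by
  have h1 : ∀ i l, (Mb S s a b w i l - Av (lf (row b')) (fun w => Mb S s a b w i l) w) ^ 2 ≤
      4 := by
    intro i l
    have g1 := abs_le.1 (abs_Mb (S := S) (a := a) hs b i l w)
    have g2 := Av_mono (R := lf (row b')) (eg_Mb (S := S) (a := a) (b := b) hs i l) (EG.const 1)
      (fun w => (abs_le.1 (abs_Mb (S := S) (a := a) hs b i l w)).2) w
    have g3 := Av_mono (R := lf (row b')) (EG.const (-1)) (eg_Mb (S := S) (a := a) (b := b) hs i l)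
      (fun w => (abs_le.1 (abs_Mb (S := S) (a := a) hs b i l w)).1) w
    rw [Av_const] at g2 g3
    nlinarith [g1.1, g1.2]
  calc F1 S s a b b' w ≤ ∑ _i : Fin n, ∑ _l : Fin n, (4 : ℝ) :=
        Finset.sum_le_sum fun i _ => Finset.sum_le_sum fun l _ => h1 i l
    _ = 4 * (n : ℝ) ^ 2 := by
        simp only [Finset.sum_const, Finset.card_univ, Fintype.card_fin, nsmul_eq_mul]
        ring

/-- the pair is bounded by the two fluctuations in one row each -/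
lemma Fp_le_F1 (hs : 0 < s) (b b' : Fin n) (w : K4 (Pair n) → ℝ) :
    Fp S s a b b' w ≤ 2 * F1 S s a b b' w + 2 * F1 S s a b' b w := by
  unfold Fp F1
  rw [Finset.mul_sum, Finset.mul_sum, ← Finset.sum_add_distrib]
  refine Finset.sum_le_sum fun i _ => ?_
  rw [Finset.mul_sum, Finset.mul_sum, ← Finset.sum_add_distrib]
  refine Finset.sum_le_sum fun l _ => ?_
  unfold fD
  by_cases h : Bu b b' i l
  · rw [if_pos h]
    have e1 := Av_Mb_row (S := S) (a := a) hs b b' i l w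
    have e2 := Av_Mb_row (S := S) (a := a) hs b' b i l w
    rw [lf2_comm, ← Av_Mb_swap hs h.1 h.2.1 h.2.2.1 h.2.2.2] at e2
    rw [e1, e2]
    nlinarith [sq_nonneg ((Mb S s a b w i l - Av (R2 b b') (fun w => Mb S s a b w i l) w) +
      (Mb S s a b' w i l - Av (R2 b b') (fun w => Mb S s a b w i l) w))]
  · rw [if_neg h, zero_pow two_ne_zero]
    positivity

/-- **Poincaré in one row** -/
lemma Av_F1 (hs : 0 < s) (hD : DHd S s DH) (b b' : Fin n) (w : K4 (Pair n) → ℝ) :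
    Av (lf (row b')) (F1 S s a b b') w ≤
      Av (lf (row b')) (Av (lf (row b)) (Xb DH a b b')) w := by
  have e1 : ∀ i l, EG (fun w => (Mb S s a b w i l -
      Av (lf (row b')) (fun w => Mb S s a b w i l) w) ^ 2) := fun i l =>
    ((eg_Mb hs i l).sub (eg_Av _ (eg_Mb hs i l))).pow 2
  have e2 : ∀ i l, EG (fun w => ∑ j ∈ lf (row b'), DMb DH a b j i l w ^ 2) := fun i l =>
    EG.sum _ fun j _ => (eg_DMb hD b j i l).pow 2
  have h1 : Av (lf (row b')) (F1 S s a b b') w ≤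
      Av (lf (row b')) (fun w => ∑ i, ∑ l, ∑ j ∈ lf (row b'), DMb DH a b j i l w ^ 2) w := by
    unfold F1
    rw [Av_sum _ fun i _ => EG.sum _ fun l _ => e1 i l,
      Av_sum _ fun i _ => EG.sum _ fun l _ => e2 i l]
    refine Finset.sum_le_sum fun i _ => ?_
    rw [Av_sum _ fun l _ => e1 i l, Av_sum _ fun l _ => e2 i l]
    refine Finset.sum_le_sum fun l _ => ?_
    exact Av_poincare' (eg_Mb (S := S) (a := a) hs i l)
      (fun j _ => pd_Mb hs hD b j i l) (fun j _ => eg_DMb hD b j i l) w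
  refine h1.trans (Av_mono (EG.sum _ fun i _ => EG.sum _ fun l _ => e2 i l)
    (eg_Av _ (eg_Xb hD b b')) (fun w => ?_) w)
  refine le_trans ?_ (sum_DMb hD b b' (a := a) w)
  exact Finset.sum_le_sum fun i _ => Finset.sum_le_sum fun l _ =>
    Finset.sum_le_sum_of_subset_of_nonneg (row_sub' b b') fun _ _ _ => sq_nonneg _

/-- the fluctuation with a weight which is frozen in the row `b'` -/
theorem Im_F1 {φ χ : (K4 (Pair n) → ℝ) → ℝ} {ε Kχ KX : ℝ} (hφ : Law2 φ ε) (hs : 0 < s)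
    (hD : DHd S s DH) (hKX : ∀ b b' w, Xb DH a b b' w ≤ KX) (b b' : Fin n)
    (eχ : EG χ) (iχ : Ind (lf (row b')) χ) (h0 : ∀ w, 0 ≤ χ w) (hKχ : ∀ w, χ w ≤ Kχ) :
    Im φ (fun w => χ w * F1 S s a b b' w) ≤
      4 * Im φ (fun w => χ w * Av (lf (row b)) (Xb DH a b b') w) +
        Kχ * (4 * (n : ℝ) ^ 2 + 2 * KX) * ε := by
  have eX : EG (Av (lf (row b)) (Xb DH a b b')) := eg_Av _ (eg_Xb hD b b')
  have X0 : ∀ w, 0 ≤ Av (lf (row b)) (Xb DH a b b') w := fun w =>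
    H712.Av_nonneg (fun w => Xb_nonneg b b' w) w
  have XK : ∀ w, Av (lf (row b)) (Xb DH a b b') w ≤ KX := by
    intro w
    have := Av_mono (R := lf (row b)) (eg_Xb (a := a) hD b b') (EG.const KX)
      (fun w => hKX b b' w) w
    rwa [Av_const] at this
  have K0 : 0 ≤ Kχ := (h0 0).trans (hKχ 0)
  have g1 := hφ.up b' b' (fun w => χ w * F1 S s a b b' w) (Kχ * (4 * (n : ℝ) ^ 2))
    (eχ.mul (eg_F1 hs b b')) (fun w => mul_nonneg (h0 w) (F1_nonneg b b' w))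
    (fun w => mul_le_mul (hKχ w) (F1_le hs b b' w) (F1_nonneg b b' w) K0)
  have g3 := hφ.lo b' b' (fun w => χ w * Av (lf (row b)) (Xb DH a b b') w) (Kχ * KX)
    (eχ.mul eX) (fun w => mul_nonneg (h0 w) (X0 w))
    (fun w => mul_le_mul (hKχ w) (XK w) (X0 w) K0)
  rw [lf2_self] at g1 g3
  have g2 : Im φ (Av (lf (row b')) fun w => χ w * F1 S s a b b' w) ≤
      Im φ (Av (lf (row b')) fun w => χ w * Av (lf (row b)) (Xb DH a b b') w) := by
    refine Im_mono hφ.nn hφ.eg (eg_Av _ (eχ.mul (eg_F1 hs b b'))) (eg_Av _ (eχ.mul eX))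
      fun w => ?_
    rw [Av_mul iχ, Av_mul iχ]
    exact mul_le_mul_of_nonneg_left (Av_F1 hs hD b b' w) (h0 w)
  nlinarith [g1, g2, g3]

/-- the other row: a weight which is frozen in the row `b` -/
theorem Im_AvX {φ χ : (K4 (Pair n) → ℝ) → ℝ} {ε Kχ KX : ℝ} (hφ : Law2 φ ε)
    (hD : DHd S s DH) (hKX : ∀ b b' w, Xb DH a b b' w ≤ KX) (b b' : Fin n)
    (eχ : EG χ) (iχ : Ind (lf (row b)) χ) (h0 : ∀ w, 0 ≤ χ w) (hKχ : ∀ w, χ w ≤ Kχ) :
    Im φ (fun w => χ w * Av (lf (row b)) (Xb DH a b b') w) ≤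
      2 * Im φ (fun w => χ w * Xb DH a b b' w) + Kχ * KX * ε := by
  have K0 : 0 ≤ Kχ := (h0 0).trans (hKχ 0)
  have g3 := hφ.lo b b (fun w => χ w * Xb DH a b b' w) (Kχ * KX)
    (eχ.mul (eg_Xb hD b b')) (fun w => mul_nonneg (h0 w) (Xb_nonneg b b' w))
    (fun w => mul_le_mul (hKχ w) (hKX b b' w) (Xb_nonneg b b' w) K0)
  rw [lf2_self] at g3
  have e : Im φ (Av (lf (row b)) fun w => χ w * Xb DH a b b' w) =
      Im φ (fun w => χ w * Av (lf (row b)) (Xb DH a b b') w) :=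
    Im_congr fun w => Av_mul iχ _ w
  rw [e] at g3
  exact g3

/-! ### pairs of rows and frozen weights -/

section pairs

variable {φ : (K4 (Pair n) → ℝ) → ℝ} {R : Finset (K4 (Pair n))} {C Y : MF n} {Yb M : Fin n → MF n}

/-- the frozen weight -/
noncomputable def chb (Yb M : Fin n → MF n) (b : Fin n) (w : K4 (Pair n) → ℝ) : ℝ :=
  qf (Yb b w) (M b w) (M b w)

/-- the weight -/
noncomputable def omg (C Y : MF n) (w : K4 (Pair n) → ℝ) : ℝ := qf (Y w) (C w) (C w)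

lemma WD.comp {B' : Type} [Fintype B'] (h : WD R φ C Y Yb M) (π : B' → Fin n) :
    WD R φ C Y (fun p => Yb (π p)) (fun p => M (π p)) :=
  ⟨h.eφ, h.h0, h.hC, h.hs, h.hY, fun p => h.hYb (π p), fun p => h.hM (π p), h.hP0,
    fun p => h.hP (π p), fun p => h.hYs (π p), fun p => h.hi (π p), h.hYc⟩

lemma sum_fst (f : Fin n → ℝ) : ∑ p : Fin n × Fin n, f p.1 = n * ∑ b, f b := by
  rw [Fintype.sum_prod_type, Finset.mul_sum]
  refine Finset.sum_congr rfl fun b _ => ?_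
  simp

lemma sum_snd (f : Fin n → ℝ) : ∑ p : Fin n × Fin n, f p.2 = n * ∑ b, f b := by
  rw [Fintype.sum_prod_type]
  simp

lemma DY_fst : DY Y (fun p : Fin n × Fin n => Yb p.1) = n * DY Y Yb := by
  unfold DY
  rw [← integral_const_mul]
  congr 1
  funext w
  exact sum_fst fun b => ∑ i, ∑ j, (Yb b w i j - Y w i j) ^ 2

lemma DY_snd : DY Y (fun p : Fin n × Fin n => Yb p.2) = n * DY Y Yb := by
  unfold DY
  rw [← integral_const_mul]
  congr 1
  funext w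
  exact sum_snd fun b => ∑ i, ∑ j, (Yb b w i j - Y w i j) ^ 2

lemma XC_fst : XC φ C (fun p : Fin n × Fin n => Yb p.1) (fun p => M p.1) = n * XC φ C Yb M := by
  unfold XC
  rw [← integral_const_mul]
  congr 1
  funext w
  rw [mul_left_comm]
  congr 1
  exact sum_fst fun b => qf (Yb b w) (fun i l => C w i l - M b w i l)
    (fun i l => C w i l - M b w i l)

lemma XC_snd : XC φ C (fun p : Fin n × Fin n => Yb p.2) (fun p => M p.2) = n * XC φ C Yb M := by
  unfold XC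
  rw [← integral_const_mul]
  congr 1
  funext w
  rw [mul_left_comm]
  congr 1
  exact sum_snd fun b => qf (Yb b w) (fun i l => C w i l - M b w i l)
    (fun i l => C w i l - M b w i l)

lemma Im_pairs (hφ : EG φ) {X g : Fin n → Fin n → (K4 (Pair n) → ℝ) → ℝ}
    (hX : ∀ b b', EG (X b b')) (hg : ∀ b b', EG (g b b')) :
    ∫ w, φ w * ∑ p : Fin n × Fin n, X p.1 p.2 w * g p.1 p.2 w ∂(gI (K4 (Pair n))) =
      ∑ b, ∑ b', Im φ (fun w => X b b' w * g b b' w) := by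
  have h1 : ∀ b, ∑ b', Im φ (fun w => X b b' w * g b b' w) =
      Im φ (fun w => ∑ b', X b b' w * g b b' w) := fun b =>
    (Im_sum hφ _ fun b' _ => (hX b b').mul (hg b b')).symm
  simp only [h1]
  rw [← Im_sum hφ _ fun b _ => EG.sum _ fun b' _ => (hX b b').mul (hg b b')]
  unfold Im
  congr 1
  funext w
  rw [Fintype.sum_prod_type]

lemma Im_pairs' (hφ : EG φ) {X : (K4 (Pair n) → ℝ) → ℝ}
    {g : Fin n → Fin n → (K4 (Pair n) → ℝ) → ℝ} (hX : EG X) (hg : ∀ b b', EG (g b b')) :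
    ∫ w, φ w * (X w * ∑ p : Fin n × Fin n, g p.1 p.2 w) ∂(gI (K4 (Pair n))) =
      ∑ b, ∑ b', Im φ (fun w => X w * g b b' w) := by
  rw [← Im_pairs hφ (X := fun _ _ => X) (fun _ _ => hX) hg]
  congr 1
  funext w
  rw [Finset.mul_sum]

/-- The sum over the pairs, frozen weight of the first row. -/
noncomputable def P1 (φ : (K4 (Pair n) → ℝ) → ℝ) (Yb M : Fin n → MF n)
    (g : Fin n → Fin n → (K4 (Pair n) → ℝ) → ℝ) : ℝ :=
  ∑ b, ∑ b', Im φ (fun w => chb Yb M b w * g b b' w)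

/-- The sum over the pairs, frozen weight of the second row. -/
noncomputable def P2 (φ : (K4 (Pair n) → ℝ) → ℝ) (Yb M : Fin n → MF n)
    (g : Fin n → Fin n → (K4 (Pair n) → ℝ) → ℝ) : ℝ :=
  ∑ b, ∑ b', Im φ (fun w => chb Yb M b' w * g b b' w)

/-- The sum over the pairs with the weight. -/
noncomputable def P0 (φ : (K4 (Pair n) → ℝ) → ℝ) (C Y : MF n)
    (g : Fin n → Fin n → (K4 (Pair n) → ℝ) → ℝ) : ℝ :=
  ∑ b, ∑ b', Im φ (fun w => omg C Y w * g b b' w)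

variable {g : Fin n → Fin n → (K4 (Pair n) → ℝ) → ℝ} {G : ℝ}

lemma eg_chb (h : WD R φ C Y Yb M) (b : Fin n) : EG (chb Yb M b) :=
  eg_qf (h.hYb b) (h.hM b) (h.hM b)

lemma eg_omg (h : WD R φ C Y Yb M) : EG (omg C Y) := eg_qf h.hY h.hC h.hC

lemma chb_nonneg (h : WD R φ C Y Yb M) (b : Fin n) (w : K4 (Pair n) → ℝ) : 0 ≤ chb Yb M b w :=
  qf_nonneg (h.hP b w) _

lemma omg_nonneg (h : WD R φ C Y Yb M) (w : K4 (Pair n) → ℝ) : 0 ≤ omg C Y w :=
  qf_nonneg (h.hP0 w) _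

lemma up1 (h : WD R φ C Y Yb M) (hG0 : 0 ≤ G) (hg : ∀ b b', EG (g b b'))
    (hg0 : ∀ b b' w, 0 ≤ g b b' w) (hG : ∀ b b' w, g b b' w ≤ G) :
    P1 φ Yb M g ≤ 3 * P0 φ C Y g + G * (n * (DY Y Yb + 2 * XC φ C Yb M)) := by
  have h1 := (h.comp (Prod.fst : Fin n × Fin n → Fin n)).up (g := fun p => g p.1 p.2) hG0
    (fun p => hg p.1 p.2) (fun p w => hg0 p.1 p.2 w) (fun p w => hG p.1 p.2 w)
  rw [DY_fst, XC_fst] at h1
  have e1 := Im_pairs h.eφ (X := fun b _ => chb Yb M b) (fun b _ => eg_chb h b) hg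
  have e2 := Im_pairs' h.eφ (eg_omg h) hg
  unfold P1 P0
  rw [← e1, ← e2]
  refine h1.trans (le_of_eq ?_)
  unfold omg
  ring

lemma up2 (h : WD R φ C Y Yb M) (hG0 : 0 ≤ G) (hg : ∀ b b', EG (g b b'))
    (hg0 : ∀ b b' w, 0 ≤ g b b' w) (hG : ∀ b b' w, g b b' w ≤ G) :
    P2 φ Yb M g ≤ 3 * P0 φ C Y g + G * (n * (DY Y Yb + 2 * XC φ C Yb M)) := by
  have h1 := (h.comp (Prod.snd : Fin n × Fin n → Fin n)).up (g := fun p => g p.1 p.2) hG0
    (fun p => hg p.1 p.2) (fun p w => hg0 p.1 p.2 w) (fun p w => hG p.1 p.2 w)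
  rw [DY_snd, XC_snd] at h1
  have e1 := Im_pairs h.eφ (X := fun _ b' => chb Yb M b') (fun _ b' => eg_chb h b') hg
  have e2 := Im_pairs' h.eφ (eg_omg h) hg
  unfold P2 P0
  rw [← e1, ← e2]
  refine h1.trans (le_of_eq ?_)
  unfold omg
  ring

lemma dn1 (h : WD R φ C Y Yb M) (hG0 : 0 ≤ G) (hg : ∀ b b', EG (g b b'))
    (hg0 : ∀ b b' w, 0 ≤ g b b' w) (hG : ∀ b b' w, g b b' w ≤ G) :
    P0 φ C Y g ≤ 4 * P1 φ Yb M g + G * (n * (DY Y Yb + 4 * XC φ C Yb M)) := by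
  have h1 := (h.comp (Prod.fst : Fin n × Fin n → Fin n)).dn (g := fun p => g p.1 p.2) hG0
    (fun p => hg p.1 p.2) (fun p w => hg0 p.1 p.2 w) (fun p w => hG p.1 p.2 w)
  rw [DY_fst, XC_fst] at h1
  have e1 := Im_pairs h.eφ (X := fun b _ => chb Yb M b) (fun b _ => eg_chb h b) hg
  have e2 := Im_pairs' h.eφ (eg_omg h) hg
  unfold P1 P0
  rw [← e1, ← e2]
  refine le_trans (le_of_eq ?_) (h1.trans (le_of_eq ?_))
  · unfold omg
    rfl
  · unfold chb
    ring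

lemma dn2 (h : WD R φ C Y Yb M) (hG0 : 0 ≤ G) (hg : ∀ b b', EG (g b b'))
    (hg0 : ∀ b b' w, 0 ≤ g b b' w) (hG : ∀ b b' w, g b b' w ≤ G) :
    P0 φ C Y g ≤ 4 * P2 φ Yb M g + G * (n * (DY Y Yb + 4 * XC φ C Yb M)) := by
  have h1 := (h.comp (Prod.snd : Fin n × Fin n → Fin n)).dn (g := fun p => g p.1 p.2) hG0
    (fun p => hg p.1 p.2) (fun p w => hg0 p.1 p.2 w) (fun p w => hG p.1 p.2 w)
  rw [DY_snd, XC_snd] at h1
  have e1 := Im_pairs h.eφ (X := fun _ b' => chb Yb M b') (fun _ b' => eg_chb h b') hg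
  have e2 := Im_pairs' h.eφ (eg_omg h) hg
  unfold P2 P0
  rw [← e1, ← e2]
  refine le_trans (le_of_eq ?_) (h1.trans (le_of_eq ?_))
  · unfold omg
    rfl
  · unfold chb
    ring

lemma P_mono (hφ : EG φ) (h0 : ∀ w, 0 ≤ φ w) {c : Fin n → Fin n → (K4 (Pair n) → ℝ) → ℝ}
    {g g' : Fin n → Fin n → (K4 (Pair n) → ℝ) → ℝ} (hc : ∀ b b', EG (c b b'))
    (hg : ∀ b b', EG (g b b')) (hg' : ∀ b b', EG (g' b b')) (hc0 : ∀ b b' w, 0 ≤ c b b' w)
    (h : ∀ b b' w, g b b' w ≤ g' b b' w) :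
    ∑ b, ∑ b', Im φ (fun w => c b b' w * g b b' w) ≤
      ∑ b, ∑ b', Im φ (fun w => c b b' w * g' b b' w) :=
  Finset.sum_le_sum fun b _ => Finset.sum_le_sum fun b' _ =>
    Im_mono h0 hφ ((hc b b').mul (hg b b')) ((hc b b').mul (hg' b b')) fun w =>
      mul_le_mul_of_nonneg_left (h b b' w) (hc0 b b' w)

lemma P_add (hφ : EG φ) {c g g' : Fin n → Fin n → (K4 (Pair n) → ℝ) → ℝ}
    (hc : ∀ b b', EG (c b b')) (hg : ∀ b b', EG (g b b')) (hg' : ∀ b b', EG (g' b b')) :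
    ∑ b, ∑ b', Im φ (fun w => c b b' w * (g b b' w + g' b b' w)) =
      (∑ b, ∑ b', Im φ (fun w => c b b' w * g b b' w)) +
        ∑ b, ∑ b', Im φ (fun w => c b b' w * g' b b' w) := by
  rw [← Finset.sum_add_distrib]
  refine Finset.sum_congr rfl fun b _ => ?_
  rw [← Finset.sum_add_distrib]
  refine Finset.sum_congr rfl fun b' _ => ?_
  rw [← Im_add hφ ((hc b b').mul (hg b b')) ((hc b b').mul (hg' b b'))]
  exact Im_congr fun w => by ring

lemma P_smul (_hφ : EG φ) (t : ℝ) {c g : Fin n → Fin n → (K4 (Pair n) → ℝ) → ℝ} :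
    ∑ b, ∑ b', Im φ (fun w => c b b' w * (t * g b b' w)) =
      t * ∑ b, ∑ b', Im φ (fun w => c b b' w * g b b' w) := by
  rw [Finset.mul_sum]
  refine Finset.sum_congr rfl fun b _ => ?_
  rw [Finset.mul_sum]
  refine Finset.sum_congr rfl fun b' _ => ?_
  rw [← Im_const_mul]
  exact Im_congr fun w => by ring

/-- the entries of `M_b` in the column `b'` -/
noncomputable def cA (S : CS n k x) (s : ℝ) (a : Fin 4 → ℝ) (b b' : Fin n)
    (w : K4 (Pair n) → ℝ) : ℝ := ∑ i, Mb S s a b w i b' ^ 2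

lemma eg_cA (hs : 0 < s) (b b' : Fin n) : EG (cA S s a b b') :=
  EG.sum _ fun i _ => (eg_Mb hs i b').pow 2

lemma cA_nonneg (b b' : Fin n) (w : K4 (Pair n) → ℝ) : 0 ≤ cA S s a b b' w :=
  Finset.sum_nonneg fun _ _ => sq_nonneg _

lemma cA_le (hs : 0 < s) (b b' : Fin n) (w : K4 (Pair n) → ℝ) : cA S s a b b' w ≤ n := by
  calc cA S s a b b' w ≤ ∑ _i : Fin n, (1 : ℝ) := by
        refine Finset.sum_le_sum fun i _ => ?_
        have g1 := abs_le.1 (abs_Mb (S := S) (a := a) hs b i b' w)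
        nlinarith [g1.1, g1.2]
    _ = n := by simp

/-- **(V2) with the frozen scalar weight** `χ_b = tr (Y_b M_b²)`. -/
theorem v2_chi {ε KX Kχ : ℝ} (hφ : Law2 φ ε) (hs : 0 < s) (hD : DHd S s DH)
    (h : WD R φ C Y Yb M) (iχ : ∀ b, Ind (lf (row b)) (chb Yb M b))
    (hKX : ∀ b b' w, Xb DH a b b' w ≤ KX) (hKχ : ∀ b w, chb Yb M b w ≤ Kχ) :
    P2 φ Yb M (Gp S s a) ≤
      15000 * (vr a * ∑ b, Im φ (fun w => omg C Y w * ∑ e, fr (DH b e (H712.lp a w)))) +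
        12 * ∑ b, Im φ (fun w => omg C Y w * fM S s a b w) +
        (3000 * KX + 32 * (n : ℝ) ^ 2 + 4 * n) * (n * (DY Y Yb + 4 * XC φ C Yb M)) +
        1300 * ((n : ℝ) ^ 2 * (Kχ * ((n : ℝ) ^ 2 + KX)) * ε) := by
  rcases Nat.eq_zero_or_pos n with rfl | hn
  · have e0 : ∀ f : Fin 0 → ℝ, ∑ b, f b = 0 := fun f => Finset.sum_empty
    unfold P2
    simp only [e0]
    simp
  have hn1 : (1 : ℝ) ≤ n := by exact_mod_cast hn
  have KX0 : 0 ≤ KX := (Xb_nonneg (DH := DH) (a := a) ⟨0, hn⟩ ⟨0, hn⟩ 0).trans (hKX _ _ _)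
  have Kχ0 : 0 ≤ Kχ := (chb_nonneg h ⟨0, hn⟩ 0).trans (hKχ _ _)
  have eφ := hφ.eg
  have ech := fun b => eg_chb h b
  have ch0 := fun b w => chb_nonneg h b w
  have eF : ∀ b b', EG (F1 S s a b b') := fun b b' => eg_F1 hs b b'
  have eF' : ∀ b b', EG (F1 S s a b' b) := fun b b' => eg_F1 hs b' b
  have eC : ∀ b b', EG (cA S s a b b') := fun b b' => eg_cA hs b b'
  have eC' : ∀ b b', EG (cA S s a b' b) := fun b b' => eg_cA hs b' b
  have eX : ∀ b b', EG (Xb DH a b b') := fun b b' => eg_Xb hD b b'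
  have eA : ∀ b b', EG (Av (lf (row b)) (Xb DH a b b')) := fun b b' => eg_Av _ (eX b b')
  have A0 : ∀ b b' w, 0 ≤ Av (lf (row b)) (Xb DH a b b') w := fun b b' w =>
    H712.Av_nonneg (fun w => Xb_nonneg b b' w) w
  have AK : ∀ b b' w, Av (lf (row b)) (Xb DH a b b') w ≤ KX := by
    intro b b' w
    have := Av_mono (R := lf (row b)) (eX b b') (EG.const KX) (fun w => hKX b b' w) w
    rwa [Av_const] at this
  obtain ⟨d, hd⟩ : ∃ d, d = n * (DY Y Yb + 4 * XC φ C Yb M) := ⟨_, rfl⟩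
  have d2 : n * (DY Y Yb + 2 * XC φ C Yb M) ≤ d := by
    rw [hd]
    have := XC_nonneg h
    exact mul_le_mul_of_nonneg_left (by linarith) (by linarith)
  have d0 : 0 ≤ d := by
    rw [hd]
    have h1 := XC_nonneg h
    have h2 : 0 ≤ DY Y Yb := DY_nonneg
    positivity
  have ub : ∀ {t : ℝ}, 0 ≤ t → t * (n * (DY Y Yb + 2 * XC φ C Yb M)) ≤ t * d := fun ht =>
    mul_le_mul_of_nonneg_left d2 ht
  have n20 : (0 : ℝ) ≤ 4 * (n : ℝ) ^ 2 := by positivity
  -- (1) the splitting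
  have s1 : P2 φ Yb M (Gp S s a) ≤ 2 * P2 φ Yb M (F1 S s a) +
      2 * P2 φ Yb M (fun b b' => F1 S s a b' b) + (2 * P2 φ Yb M (cA S s a) +
      2 * P2 φ Yb M (fun b b' => cA S s a b' b)) := by
    have t1 := P_mono (φ := φ) eφ hφ.nn (c := fun _ b' => chb Yb M b') (g := Gp S s a)
      (g' := fun b b' w => (2 * F1 S s a b b' w + 2 * F1 S s a b' b w) +
        (2 * cA S s a b b' w + 2 * cA S s a b' b w)) (fun _ b' => ech b')
      (fun b b' => eg_Gp hs b b') (fun b b' => (((eF b b').const_mul 2).add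
        ((eF' b b').const_mul 2)).add (((eC b b').const_mul 2).add ((eC' b b').const_mul 2)))
      (fun _ b' => ch0 b') (fun b b' w => by
        have g1 := Gp_le (S := S) (a := a) hs b b' w
        have g2 := Fp_le_F1 (S := S) (a := a) hs b b' w
        unfold cA
        linarith)
    refine t1.trans (le_of_eq ?_)
    rw [P_add eφ (fun _ b' => ech b') (fun b b' => ((eF b b').const_mul 2).add
        ((eF' b b').const_mul 2)) (fun b b' => ((eC b b').const_mul 2).add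
        ((eC' b b').const_mul 2)), P_add eφ (fun _ b' => ech b')
        (fun b b' => (eF b b').const_mul 2) (fun b b' => (eF' b b').const_mul 2),
      P_add eφ (fun _ b' => ech b') (fun b b' => (eC b b').const_mul 2)
        (fun b b' => (eC' b b').const_mul 2), P_smul eφ, P_smul eφ, P_smul eφ, P_smul eφ]
    rfl
  have s2 : P2 φ Yb M (fun b b' => F1 S s a b' b) = P1 φ Yb M (F1 S s a) := by
    unfold P2 P1
    exact Finset.sum_comm
  have s3 := up1 h n20 eF (fun b b' w => F1_nonneg b b' w) (fun b b' w => F1_le hs b b' w)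
  have s4 := dn2 h n20 eF (fun b b' w => F1_nonneg b b' w) (fun b b' w => F1_le hs b b' w)
  have s3' := ub n20
  -- (2) the fluctuation in one row
  have s5 : P2 φ Yb M (F1 S s a) ≤
      4 * P2 φ Yb M (fun b b' => Av (lf (row b)) (Xb DH a b b')) +
        (n : ℝ) ^ 2 * (Kχ * (4 * (n : ℝ) ^ 2 + 2 * KX) * ε) := by
    unfold P2
    have t1 : ∀ b b' : Fin n, Im φ (fun w => chb Yb M b' w * F1 S s a b b' w) ≤
        4 * Im φ (fun w => chb Yb M b' w * Av (lf (row b)) (Xb DH a b b') w) +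
          Kχ * (4 * (n : ℝ) ^ 2 + 2 * KX) * ε := fun b b' =>
      Im_F1 hφ hs hD hKX b b' (ech b') (iχ b') (ch0 b') (hKχ b')
    refine (Finset.sum_le_sum fun b _ => Finset.sum_le_sum fun b' _ => t1 b b').trans
      (le_of_eq ?_)
    simp only [Finset.sum_add_distrib, ← Finset.mul_sum, Finset.sum_const, Finset.card_univ,
      Fintype.card_fin, nsmul_eq_mul]
    ring
  have s6 := up2 h KX0 eA A0 AK
  have s7 := dn1 h KX0 eA A0 AK
  have s6' := ub KX0
  have s8 : P1 φ Yb M (fun b b' => Av (lf (row b)) (Xb DH a b b')) ≤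
      2 * P1 φ Yb M (Xb DH a) + (n : ℝ) ^ 2 * (Kχ * KX * ε) := by
    unfold P1
    have t1 : ∀ b b' : Fin n, Im φ (fun w => chb Yb M b w *
        Av (lf (row b)) (Xb DH a b b') w) ≤
        2 * Im φ (fun w => chb Yb M b w * Xb DH a b b' w) + Kχ * KX * ε := fun b b' =>
      Im_AvX hφ hD hKX b b' (ech b) (iχ b) (ch0 b) (hKχ b)
    refine (Finset.sum_le_sum fun b _ => Finset.sum_le_sum fun b' _ => t1 b b').trans
      (le_of_eq ?_)
    simp only [Finset.sum_add_distrib, ← Finset.mul_sum, Finset.sum_const, Finset.card_univ,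
      Fintype.card_fin, nsmul_eq_mul]
    ring
  have s9 := up1 h KX0 eX (fun b b' w => Xb_nonneg b b' w) hKX
  have s10 : P0 φ C Y (Xb DH a) =
      2 * (vr a * ∑ b, Im φ (fun w => omg C Y w * ∑ e, fr (DH b e (H712.lp a w)))) := by
    unfold P0
    rw [Finset.mul_sum, Finset.mul_sum]
    refine Finset.sum_congr rfl fun b _ => ?_
    rw [← Im_sum eφ _ fun b' _ => (eg_omg h).mul (eX b b')]
    have e : ∀ w, ∑ b', omg C Y w * Xb DH a b b' w =
        (2 * vr a) * (omg C Y w * ∑ e, fr (DH b e (H712.lp a w))) := by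
      intro w
      unfold Xb
      rw [← Finset.mul_sum, ← Finset.mul_sum, sum_edges]
      ring
    rw [Im_congr e, Im_const_mul]
    ring
  -- (3) the columns
  have n0 : (0 : ℝ) ≤ n := by linarith
  have s11 := up2 h n0 eC (fun b b' w => cA_nonneg b b' w) (fun b b' w => cA_le hs b b' w)
  have s12 := up2 h n0 eC' (fun b b' w => cA_nonneg b' b w) (fun b b' w => cA_le hs b' b w)
  have s11' := ub n0
  have s13 : P0 φ C Y (cA S s a) = ∑ b, Im φ (fun w => omg C Y w * fM S s a b w) := by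
    unfold P0
    refine Finset.sum_congr rfl fun b _ => ?_
    rw [← Im_sum eφ _ fun b' _ => (eg_omg h).mul (eC b b')]
    refine Im_congr fun w => ?_
    rw [← Finset.mul_sum]
    congr 1
    unfold fM cA
    exact Finset.sum_comm
  have s14 : P0 φ C Y (fun b b' => cA S s a b' b) = P0 φ C Y (cA S s a) := by
    unfold P0
    exact Finset.sum_comm
  obtain ⟨E, hE⟩ : ∃ E, E = ∑ b, Im φ (fun w => omg C Y w * ∑ e, fr (DH b e (H712.lp a w))) :=
    ⟨_, rfl⟩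
  obtain ⟨FM, hFM⟩ : ∃ E, E = ∑ b, Im φ (fun w => omg C Y w * fM S s a b w) := ⟨_, rfl⟩
  rw [← hE] at s10
  rw [← hFM] at s13
  rw [← hd] at s4 s7
  rw [← hE, ← hFM, ← hd]
  rw [s2] at s1
  rw [s10] at s9
  rw [s13] at s11
  rw [s14, s13] at s12
  have E0 : 0 ≤ vr a * E := by
    rw [hE]
    refine mul_nonneg (vr_nonneg a) (Finset.sum_nonneg fun b _ => ?_)
    exact integral_nonneg fun w => mul_nonneg (hφ.nn w) (mul_nonneg (omg_nonneg h w)
      (Finset.sum_nonneg fun e _ => H325.fr_nonneg _))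
  have c1 : P1 φ Yb M (F1 S s a) ≤ 12 * P2 φ Yb M (F1 S s a) + 4 * (4 * (n : ℝ) ^ 2 * d) := by
    linarith
  have c2 : P2 φ Yb M (fun b b' => Av (lf (row b)) (Xb DH a b b')) ≤
      12 * P1 φ Yb M (fun b b' => Av (lf (row b)) (Xb DH a b b')) + 4 * (KX * d) := by
    linarith
  have c3 : P1 φ Yb M (Xb DH a) ≤ 6 * (vr a * E) + KX * d := by linarith
  have nn : (0 : ℝ) ≤ (n : ℝ) ^ 2 * (Kχ * ((n : ℝ) ^ 2 + KX)) := by positivity
  have ε0 := mul_nonneg nn hφ.ε0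
  have x1 : 0 ≤ (n : ℝ) ^ 2 * (Kχ * (n : ℝ) ^ 2 * ε) := by have := hφ.ε0; positivity
  have x2 : 0 ≤ (n : ℝ) ^ 2 * (Kχ * KX * ε) := by have := hφ.ε0; positivity
  have c4 : P2 φ Yb M (F1 S s a) ≤ 4 * (12 * (2 * (6 * (vr a * E) + KX * d) +
      (n : ℝ) ^ 2 * (Kχ * KX * ε)) + 4 * (KX * d)) +
      (4 * ((n : ℝ) ^ 2 * (Kχ * (n : ℝ) ^ 2 * ε)) + 2 * ((n : ℝ) ^ 2 * (Kχ * KX * ε))) := by
    have e : (n : ℝ) ^ 2 * (Kχ * (4 * (n : ℝ) ^ 2 + 2 * KX) * ε) =
      4 * ((n : ℝ) ^ 2 * (Kχ * (n : ℝ) ^ 2 * ε)) + 2 * ((n : ℝ) ^ 2 * (Kχ * KX * ε)) := by ring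
    rw [e] at s5
    linarith
  have e5 : (n : ℝ) ^ 2 * (Kχ * ((n : ℝ) ^ 2 + KX)) * ε =
      (n : ℝ) ^ 2 * (Kχ * (n : ℝ) ^ 2 * ε) + (n : ℝ) ^ 2 * (Kχ * KX * ε) := by ring
  rw [e5]
  have e6 : (3000 * KX + 32 * (n : ℝ) ^ 2 + 4 * n) * d =
      3000 * (KX * d) + 8 * (4 * (n : ℝ) ^ 2 * d) + 4 * (n * d) := by ring
  rw [e6]
  have y1 : 0 ≤ KX * d := mul_nonneg KX0 d0
  linarith

end pairs

end Vale.Agent.P146.H376
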