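import Vale.Agent.P146.H767.Scal
import Vale.Agent.P146.H640.Pl

/-!
# P146: the bracket of the two-layer law

The profile `(0 | y on [w-τ, w] | x on [w, 1])`, `w = 1 - s`, `0 < y < x`.  The squared gradient of
its value function at the start `w - τ` of the `y`-layer is bounded, under every weight `q` of the
position `z_{w-τ}`, by the difference of two value functions of the exponents `x` and `0` on the
layer.  The mean of this difference is `D(x, s + τ) - D(x, s)`.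
-/

open MeasureTheory ProbabilityTheory

namespace Vale.Agent.P146.H376

open Vale.Agent.P157.Lv Vale.Agent.P146.H425 Vale.Agent.P146.R1 Vale.Agent.P146.H767

set_option linter.unusedSectionVars false

section gen

variable {κ : Type} [Fintype κ] {F U : (κ → ℝ) → ℝ} {D DU : κ → (κ → ℝ) → ℝ}
  {B L x y b s τ : ℝ}

/-- **The gain of the higher exponent over the mean, at the lower exponent.** -/
theorem gain_pt (h : C11 U DU B L) (hc : Cv U) (hy : 0 < y) (hyx : y ≤ x) (b : ℝ) (z : κ → ℝ) :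
    Mn b U z + (x - y) / 2 * (b ^ 2 * G2 y b U DU z) ≤ W x b U z := by
  have hx : 0 < x := hy.trans_le hyx
  have h1 := tangent (h.shift z b) (hc.shift z b) hy (x' := x) hx
  rw [W_shift, W_shift] at h1
  have h2 := KL_shift_ge (b := b) h hy z
  have h0 : Mn b U z ≤ W y b U z := mean_le_W h hy b z
  have h3 : (x - y) * (y ^ 2 / 2 * (b ^ 2 * G2 y b U DU z) / y ^ 2) ≤
      (x - y) * (KL (fun w => U (z + b • w)) y / y ^ 2) := by
    have hx1 : 0 ≤ x - y := by linarith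
    gcongr
  have e : (x - y) * (y ^ 2 / 2 * (b ^ 2 * G2 y b U DU z) / y ^ 2) =
      (x - y) / 2 * (b ^ 2 * G2 y b U DU z) := by
    field_simp
  linarith

/-- The value function of the two layers at the start of the first one. -/
noncomputable def V2 (y τ x s : ℝ) (F : (κ → ℝ) → ℝ) (z : κ → ℝ) : ℝ :=
  W y (√τ) (uu x (1 - s) F) z

/-- The value function of the second layer, averaged over the first one (exponent `0`). -/
noncomputable def V0 (τ x s : ℝ) (F : (κ → ℝ) → ℝ) (z : κ → ℝ) : ℝ :=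
  Mn (√τ) (uu x (1 - s) F) z

/-- The squared gradient of `V2`. -/
noncomputable def S2 (y τ x s : ℝ) (F : (κ → ℝ) → ℝ) (D : κ → (κ → ℝ) → ℝ) (z : κ → ℝ) : ℝ :=
  G2 y (√τ) (uu x (1 - s) F) (dd x (1 - s) F D) z

/-- equal exponents: one window -/
lemma V2_self (h : C11 F D B L) (hx : 0 < x) (hτ : 0 ≤ τ) (hs : 0 ≤ s) (z : κ → ℝ) :
    V2 x τ x s F z = uu x (1 - (s + τ)) F z := by
  unfold V2 uu
  refine W_W h.lip h.B0 hx ?_ z
  rw [Real.sq_sqrt hτ, Real.sq_sqrt (by linarith), Real.sq_sqrt (by linarith)]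
  ring

/-- the exponent `0` on the first layer, in the mean -/
lemma int_V0 (h : C11 F D B L) (hx : 0 < x) (hτ : 0 ≤ τ) (h1 : s + τ ≤ 1) :
    ∫ z, V0 τ x s F (√(1 - (s + τ)) • z) ∂(gI κ) =
      ∫ z, uu x (1 - s) F (√(1 - s) • z) ∂(gI κ) := by
  have hU := c11_uu h hx (1 - s)
  have h2 := gI_rot hU.eg (a := √(1 - (s + τ))) (b := √τ) (c := √(1 - s)) (by
    rw [Real.sq_sqrt (by linarith), Real.sq_sqrt hτ, Real.sq_sqrt (by linarith)]
    ring) 0
  simp only [zero_add] at h2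
  exact h2

lemma c11_V2 (h : C11 F D B L) (hx : 0 < x) (hy : 0 < y) (τ s : ℝ) :
    ∃ B' L', C11 (V2 y τ x s F) (DW y (√τ) (uu x (1 - s) F) (dd x (1 - s) F D)) B' L' :=
  ⟨_, _, (c11_uu h hx (1 - s)).W' hy (√τ)⟩

lemma eg_V2 (h : C11 F D B L) (hx : 0 < x) (hy : 0 < y) (τ s : ℝ) : EG (V2 y τ x s F) :=
  ((c11_uu h hx (1 - s)).W' hy (√τ)).eg

lemma eg_V0 (h : C11 F D B L) (hx : 0 < x) (τ s : ℝ) : EG (V0 τ x s F) :=
  EG.conv (c11_uu h hx (1 - s)).eg _

lemma cv_V2 (h : C11 F D B L) (hc : Cv F) (hx : 0 < x) (hy : 0 < y) (τ s : ℝ) :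
    Cv (V2 y τ x s F) := cv_W (c11_uu h hx (1 - s)) (cv_uu h hc hx (1 - s)) hy _

lemma cv_V0 (h : C11 F D B L) (hc : Cv F) (hx : 0 < x) (τ s : ℝ) : Cv (V0 τ x s F) := by
  have hU := c11_uu h hx (1 - s)
  have hcU := cv_uu h hc hx (1 - s)
  intro p q hp hq hpq w0 w1
  unfold V0 Mn
  rw [← integral_const_mul, ← integral_const_mul,
    ← integral_add ((EG.add_smul hU.eg w0 _).const_mul _).integrable
      ((EG.add_smul hU.eg w1 _).const_mul _).integrable]
  refine integral_mono (EG.add_smul hU.eg _ _).integrable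
    (((EG.add_smul hU.eg w0 _).const_mul _).add ((EG.add_smul hU.eg w1 _).const_mul _)).integrable
      fun z => ?_
  have e : p • w0 + q • w1 + √τ • z = p • (w0 + √τ • z) + q • (w1 + √τ • z) := by
    have e2 : p • z + q • z = z := by rw [← add_smul, hpq, one_smul]
    rw [smul_add, smul_add, smul_comm p, smul_comm q]
    nth_rewrite 1 [← e2]
    rw [smul_add]
    abel
  simp only [e]
  exact hcU p q hp hq hpq _ _

lemma eg_S2 (h : C11 F D B L) (hx : 0 < x) (hy : 0 < y) (τ s : ℝ) : EG (S2 y τ x s F D) :=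
  ((c11_uu h hx (1 - s)).W' hy (√τ)).eg_G2

lemma S2_nonneg (y τ x s : ℝ) (F : (κ → ℝ) → ℝ) (D : κ → (κ → ℝ) → ℝ) (z : κ → ℝ) :
    0 ≤ S2 y τ x s F D z := Finset.sum_nonneg fun _ _ => sq_nonneg _

/-- the order of the value functions -/
lemma V0_le_V2 (h : C11 F D B L) (hx : 0 < x) (hy : 0 < y) (τ s : ℝ) (z : κ → ℝ) :
    V0 τ x s F z ≤ V2 y τ x s F z := mean_le_W (c11_uu h hx (1 - s)) hy _ z

/-- **The bracket, pointwise in the position at the start of the first layer.** -/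
theorem bracket_pt (h : C11 F D B L) (hc : Cv F) (hy : 0 < y) (hyx : y ≤ x) (hτ : 0 ≤ τ) (s : ℝ)
    (z : κ → ℝ) :
    V0 τ x s F z + (x - y) / 2 * (τ * S2 y τ x s F D z) ≤ V2 x τ x s F z := by
  have hx := hy.trans_le hyx
  have h1 := gain_pt (c11_uu h hx (1 - s)) (cv_uu h hc hx (1 - s)) hy hyx (√τ) z
  rw [Real.sq_sqrt hτ] at h1
  exact h1

/-- **The bracket under a weight of the base position.** -/
theorem bracket (h : C11 F D B L) (hc : Cv F) (hy : 0 < y) (hyx : y ≤ x) (hτ : 0 ≤ τ)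
    (hs : 0 < s) (h1 : s + τ ≤ 1) {q : (κ → ℝ) → ℝ} (hq : EG q) (hq0 : ∀ z, 0 ≤ q z)
    {e1 e2 : ℝ}
    (hup : ∫ z, q z * V2 x τ x s F (√(1 - (s + τ)) • z) ∂(gI κ) ≤
      ∫ z, V2 x τ x s F (√(1 - (s + τ)) • z) ∂(gI κ) + e1)
    (hlow : ∫ z, V0 τ x s F (√(1 - (s + τ)) • z) ∂(gI κ) - e2 ≤
      ∫ z, q z * V0 τ x s F (√(1 - (s + τ)) • z) ∂(gI κ))
    (hconc : s * DD x (s + τ) F ≤ (s + τ) * DD x s F) :
    (x - y) / 2 * (τ * ∫ z, q z * S2 y τ x s F D (√(1 - (s + τ)) • z) ∂(gI κ)) ≤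
      τ / s * DD x s F + e1 + e2 := by
  have hx := hy.trans_le hyx
  have i0 := hq.mul (EG.smul' (eg_V0 h hx τ s) (√(1 - (s + τ))))
  have i1 := hq.mul (EG.smul' (eg_S2 h hx hy τ s) (√(1 - (s + τ))))
  have i2 := hq.mul (EG.smul' (eg_V2 h hx hx τ s) (√(1 - (s + τ))))
  have h3 : ∫ z, q z * V0 τ x s F (√(1 - (s + τ)) • z) ∂(gI κ) +
      (x - y) / 2 * (τ * ∫ z, q z * S2 y τ x s F D (√(1 - (s + τ)) • z) ∂(gI κ)) ≤
      ∫ z, q z * V2 x τ x s F (√(1 - (s + τ)) • z) ∂(gI κ) := by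
    rw [← integral_const_mul, ← integral_const_mul,
      ← integral_add i0.integrable ((i1.const_mul τ).const_mul _).integrable]
    refine integral_mono (i0.add ((i1.const_mul τ).const_mul _)).integrable i2.integrable
      fun z => ?_
    have := mul_le_mul_of_nonneg_left
      (bracket_pt (D := D) h hc hy hyx hτ s (√(1 - (s + τ)) • z)) (hq0 z)
    simp only
    linarith
  have e3 : ∫ z, V2 x τ x s F (√(1 - (s + τ)) • z) ∂(gI κ) =
      DD x (s + τ) F + ∫ z, F z ∂(gI κ) := by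
    simp_rw [V2_self h hx hτ hs.le]
    unfold DD
    ring
  have e4 : ∫ z, V0 τ x s F (√(1 - (s + τ)) • z) ∂(gI κ) = DD x s F + ∫ z, F z ∂(gI κ) := by
    rw [int_V0 h hx hτ h1]
    unfold DD
    ring
  have e5 : DD x (s + τ) F - DD x s F ≤ τ / s * DD x s F := by
    rw [div_mul_eq_mul_div, le_div_iff₀ hs]
    nlinarith
  linarith

end gen

end Vale.Agent.P146.H376
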