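import Vale.Agent.P146.H693.Fub
import Vale.Agent.P146.H376.Brk

/-!
The base density of a nested weight: a nested mean with a deep position and the position at the
start of the layers is an integral against a bounded density in the latter position alone.
-/

open MeasureTheory ProbabilityTheory

namespace Vale.Agent.P146.H376

open Vale.Agent.P157.Lv Vale.Agent.P146.H425 Vale.Agent.P146.R1 Vale.Agent.P146.H767
open Vale.Agent.P146.H785 (Ax)

set_option linter.unusedSectionVars false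

variable {κ : Type} [Fintype κ] [DecidableEq κ] {ι : Type*} {P : Finset ι}
  {α T : ι → (κ → ℝ) → ℝ} {t0 ta M : ℝ} {φ : (κ → ℝ) → ℝ}

/-- the nested mean with the weight `∑ α_p(z_0) T_p(z_a)` -/
noncomputable def nm (P : Finset ι) (α T : ι → (κ → ℝ) → ℝ) (t0 ta : ℝ)
    (φ : (κ → ℝ) → ℝ) : ℝ :=
  ∑ p ∈ P, ∫ g0, α p (√t0 • g0) * ∫ g1, φ (√t0 • g0 + √(ta - t0) • g1) *
    T p (√t0 • g0 + √(ta - t0) • g1) ∂(gI κ) ∂(gI κ)

/-- the conditional mean of `α` given the position at the time `ta` -/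
noncomputable def ca (t0 ta : ℝ) (a : (κ → ℝ) → ℝ) (g : κ → ℝ) : ℝ :=
  ∫ w, a ((t0 / ta) • (√ta • g) + (-(√t0 * √(ta - t0) / √ta)) • w) ∂(gI κ)

/-- the density of the weight in the position at the time `ta` -/
noncomputable def qn (P : Finset ι) (α T : ι → (κ → ℝ) → ℝ) (t0 ta : ℝ) (g : κ → ℝ) : ℝ :=
  ∑ p ∈ P, ca t0 ta (α p) g * T p (√ta • g)

lemma eg_ca {a : (κ → ℝ) → ℝ} (ha : EG a) (t0 ta : ℝ) : EG (ca t0 ta a) := by
  have h1 := EG.conv ha (-(√t0 * √(ta - t0) / √ta))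
  have h2 := EG.smul' (EG.smul' h1 (t0 / ta)) (√ta)
  exact h2

lemma eg_qn (hα : ∀ p ∈ P, EG (α p)) (hT : ∀ p ∈ P, EG (T p)) (t0 ta : ℝ) :
    EG (qn P α T t0 ta) :=
  EG.sum _ fun p hp => (eg_ca (hα p hp) t0 ta).mul (EG.smul' (hT p hp) (√ta))

/-- **the nested mean in terms of the density** -/
theorem nm_eq (hα : ∀ p ∈ P, EG (α p)) (hT : ∀ p ∈ P, EG (T p)) (hφ : EG φ) (h0 : 0 ≤ t0)
    (h1 : t0 ≤ ta) (h2 : 0 < ta) :
    nm P α T t0 ta φ = ∫ g, qn P α T t0 ta g * φ (√ta • g) ∂(gI κ) := by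
  unfold nm qn
  simp_rw [Finset.sum_mul]
  rw [integral_finsetSum]
  · refine Finset.sum_congr rfl fun p hp => ?_
    have key := H693.bridge (hα p hp) (hφ.mul (hT p hp)) 0 (a := √t0) (h := √(ta - t0))
      (τ := √ta) (Real.sqrt_nonneg _) (Real.sqrt_nonneg _) (Real.sqrt_pos.2 h2) (by
        rw [Real.sq_sqrt h0, Real.sq_sqrt (by linarith), Real.sq_sqrt h2.le]; ring)
    simp only [zero_add] at key
    rw [Real.sq_sqrt h0, Real.sq_sqrt h2.le] at key
    simp_rw [integral_const_mul] at key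
    rw [key]
    refine integral_congr_ae (Filter.Eventually.of_forall fun g => ?_)
    simp only [ca]
    ring
  · intro p hp
    exact (((eg_ca (hα p hp) t0 ta).mul (EG.smul' (hT p hp) (√ta))).mul
      (EG.smul' hφ (√ta))).integrable

lemma qn_eq (hα : ∀ p ∈ P, EG (α p)) (t0 ta : ℝ) (g : κ → ℝ) :
    qn P α T t0 ta g = ∫ w, ∑ p ∈ P, α p ((t0 / ta) • (√ta • g) +
      (-(√t0 * √(ta - t0) / √ta)) • w) * T p (√ta • g) ∂(gI κ) := by
  rw [integral_finsetSum]
  · unfold qn ca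
    refine Finset.sum_congr rfl fun p hp => ?_
    rw [integral_mul_const]
  · intro p hp
    exact ((EG.add_smul (hα p hp) _ _).integrable).mul_const _

lemma qn_nonneg (hα : ∀ p ∈ P, EG (α p)) (hp : ∀ v z, 0 ≤ ∑ p ∈ P, α p v * T p z) (t0 ta : ℝ)
    (g : κ → ℝ) : 0 ≤ qn P α T t0 ta g := by
  rw [qn_eq hα]
  exact integral_nonneg fun w => hp _ _

lemma qn_le (hα : ∀ p ∈ P, EG (α p)) (hM : ∀ v z, ∑ p ∈ P, α p v * T p z ≤ M) (t0 ta : ℝ)
    (g : κ → ℝ) : qn P α T t0 ta g ≤ M := by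
  rw [qn_eq hα]
  have h1 : Integrable (fun w : κ → ℝ => ∑ p ∈ P, α p ((t0 / ta) • (√ta • g) +
      (-(√t0 * √(ta - t0) / √ta)) • w) * T p (√ta • g)) (gI κ) :=
    integrable_finsetSum _ fun p hp => ((EG.add_smul (hα p hp) _ _).integrable).mul_const _
  refine (integral_mono h1 (integrable_const M) fun w => hM _ _).trans (le_of_eq ?_)
  simp

/-- **The base density of a nested weight.** -/
theorem base_density (hα : ∀ p ∈ P, EG (α p)) (hT : ∀ p ∈ P, EG (T p)) (h0 : 0 ≤ t0)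
    (h1 : t0 ≤ ta) (h2 : 0 < ta) (hp : ∀ v z, 0 ≤ ∑ p ∈ P, α p v * T p z)
    (hM : ∀ v z, ∑ p ∈ P, α p v * T p z ≤ M) {A : ℝ} (hA : A = nm P α T t0 ta (fun _ => 1))
    (hA0 : 0 < A) :
    ∃ q : (κ → ℝ) → ℝ, EG q ∧ (∀ z, 0 ≤ q z) ∧ (∀ z, q z ≤ M / A) ∧ ∫ z, q z ∂(gI κ) = 1 ∧
      Integrable (fun z => q z * Real.log (q z)) (gI κ) ∧
      ∫ z, q z * Real.log (q z) ∂(gI κ) ≤ Real.log (M / A) ∧
      ∀ φ, EG φ → nm P α T t0 ta φ = A * ∫ z, q z * φ (√ta • z) ∂(gI κ) := by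
  set q : (κ → ℝ) → ℝ := fun z => A⁻¹ * qn P α T t0 ta z with hq
  have e : EG q := (eg_qn hα hT t0 ta).const_mul _
  have q0 : ∀ z, 0 ≤ q z := fun z => mul_nonneg (inv_nonneg.2 hA0.le) (qn_nonneg hα hp t0 ta z)
  have qM : ∀ z, q z ≤ M / A := fun z => by
    rw [hq, div_eq_inv_mul]
    exact mul_le_mul_of_nonneg_left (qn_le hα hM t0 ta z) (inv_nonneg.2 hA0.le)
  have key : ∀ φ, EG φ → nm P α T t0 ta φ = A * ∫ z, q z * φ (√ta • z) ∂(gI κ) := by
    intro φ hφ
    rw [nm_eq hα hT hφ h0 h1 h2, hq]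
    have e1 : ∀ z, A⁻¹ * qn P α T t0 ta z * φ (√ta • z) =
        A⁻¹ * (qn P α T t0 ta z * φ (√ta • z)) := fun z => by ring
    simp_rw [e1]
    rw [integral_const_mul, ← mul_assoc, mul_inv_cancel₀ hA0.ne', one_mul]
  have q1 : ∫ z, q z ∂(gI κ) = 1 := by
    have h3 := key (fun _ => 1) (EG.const 1)
    rw [← hA] at h3
    simp only [mul_one] at h3
    have h4 : A * (∫ z, q z ∂(gI κ)) = A * 1 := by rw [← h3, mul_one]
    exact mul_left_cancel₀ hA0.ne' h4
  have hMA : 1 ≤ M / A := by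
    have h3 := integral_mono e.integrable (integrable_const (M / A)) qM
    rw [q1] at h3
    simpa using h3
  have lq : ∀ z, q z * Real.log (q z) ≤ q z * Real.log (M / A) := by
    intro z
    rcases (q0 z).eq_or_lt with h | h
    · rw [← h]; simp
    · exact mul_le_mul_of_nonneg_left (Real.log_le_log h (qM z)) h.le
  have iq : Integrable (fun z => q z * Real.log (q z)) (gI κ) := by
    have hm : Measurable fun z => q z * Real.log (q z) := e.meas.mul (e.meas.log)
    have h3 : Integrable (fun z => q z * Real.log (M / A) + 1) (gI κ) :=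
      (e.integrable.mul_const _).add (integrable_const _)
    refine h3.mono' hm.aestronglyMeasurable (Filter.Eventually.of_forall fun z => ?_)
    rw [Real.norm_eq_abs, abs_le]
    have hl : 0 ≤ Real.log (M / A) := Real.log_nonneg hMA
    have h5 := mul_nonneg (q0 z) hl
    constructor
    · have h4 : -1 ≤ q z * Real.log (q z) := by
        rcases (q0 z).eq_or_lt with h | h
        · rw [← h]; simp
        · have h6 := Real.one_sub_inv_le_log_of_pos h
          have h7 := mul_le_mul_of_nonneg_left h6 h.le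
          have h8 : q z * (1 - (q z)⁻¹) = q z - 1 := by
            rw [mul_sub, mul_one, mul_inv_cancel₀ h.ne']
          rw [h8] at h7
          linarith
      linarith
    · linarith [lq z]
  refine ⟨q, e, q0, qM, q1, iq, ?_, key⟩
  refine (integral_mono iq (e.integrable.mul_const _) lq).trans (le_of_eq ?_)
  rw [integral_mul_const, q1, one_mul]

end Vale.Agent.P146.H376
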