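import Vale.Agent.P146.H376.Brk
import Vale.Agent.P146.H641.ShiftU

/-!
# P146: the bracket of the two-layer law under a weight of small entropy

`bracket` with the two transfers discharged: the lower one by the convexity of the value function
(`H641.SU.low_shift`), the upper one from an exponential moment (`H641.SU.shift_of_exp`).
-/

open MeasureTheory ProbabilityTheory

namespace Vale.Agent.P146.H376

open Vale.Agent.P157.Lv Vale.Agent.P146.H425 Vale.Agent.P146.R1 Vale.Agent.P146.H767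

set_option linter.unusedSectionVars false

section gen

variable {κ : Type} [Fintype κ] {F U : (κ → ℝ) → ℝ} {D DU : κ → (κ → ℝ) → ℝ}
  {B L x y b s τ : ℝ}

lemma Cv.smulArg (hc : Cv U) (a : ℝ) : Cv fun z => U (a • z) := by
  intro p q hp hq hpq w0 w1
  have h1 := hc p q hp hq hpq (a • w0) (a • w1)
  have e : p • (a • w0) + q • (a • w1) = a • (p • w0 + q • w1) := by
    rw [smul_add, smul_comm p, smul_comm q]
  rwa [e] at h1

/-- a weight of small entropy lowers the mean of a convex function by little -/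
lemma transfer_low (hU : EG U) (hUm : Measurable U) (hc : Cv U) {q : (κ → ℝ) → ℝ} (hq : EG q)
    (hq0 : ∀ z, 0 ≤ q z) (hq1 : ∫ z, q z ∂(gI κ) = 1)
    (hql : Integrable (fun z => q z * Real.log (q z)) (gI κ)) {K S : ℝ}
    (hK : ∫ z, q z * Real.log (q z) ∂(gI κ) ≤ K) (hS : 0 < S)
    (hV : Var[U; gI κ] ≤ S ^ 2) :
    ∫ z, U z ∂(gI κ) - 12 * S * (K + 3 / 2) ≤ ∫ z, q z * U z ∂(gI κ) := by
  have h2 : MemLp U 2 (gI κ) := by
    have i1 := (hU.pow 2).integrable
    exact (memLp_two_iff_integrable_sq hUm.aestronglyMeasurable).2 i1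
  have h1 := H641.SU.low_shift (U := U) (h := q) hUm h2 (fun v w => by
    have := hc (1 / 2) (1 / 2) (by norm_num) (by norm_num) (by norm_num) v w
    linarith) hS hV hq0 hq1 hql (hq.mul hU).integrable
  have h3 : 12 * S * (∫ z, q z * Real.log (q z) ∂(gI κ) + 3 / 2) ≤ 12 * S * (K + 3 / 2) := by
    gcongr
  linarith

/-- a weight of small entropy raises the mean of a function with an exponential moment by
little -/
lemma transfer_up (hU : EG U) {q : (κ → ℝ) → ℝ} (hq : EG q)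
    (hq0 : ∀ z, 0 ≤ q z) (hq1 : ∫ z, q z ∂(gI κ) = 1)
    (hql : Integrable (fun z => q z * Real.log (q z)) (gI κ)) {K l : ℝ}
    (hK : ∫ z, q z * Real.log (q z) ∂(gI κ) ≤ K) (hl : 0 < l)
    (he : Integrable (fun z => Real.exp (l * (U z - ∫ w, U w ∂(gI κ)))) (gI κ))
    (hm : ∫ z, Real.exp (l * (U z - ∫ w, U w ∂(gI κ))) ∂(gI κ) ≤ 7 / 2) :
    ∫ z, q z * U z ∂(gI κ) ≤ ∫ z, U z ∂(gI κ) + (K + 3 / 2) / l := by
  have h1 := H641.SU.shift_of_exp (h := q) (Z := U) hq0 hq1 hql (hq.mul hU).integrable hl he hm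
  have h3 : (∫ z, q z * Real.log (q z) ∂(gI κ) + 3 / 2) / l ≤ (K + 3 / 2) / l := by
    gcongr
  linarith

/-- **The bracket under a weight of small entropy.** -/
theorem bracket_sa (h : C11 F D B L) (hc : Cv F) (hy : 0 < y) (hyx : y ≤ x) (hτ : 0 ≤ τ)
    (hs : 0 < s) (h1 : s + τ ≤ 1) {q : (κ → ℝ) → ℝ} (hq : EG q) (hq0 : ∀ z, 0 ≤ q z)
    (hq1 : ∫ z, q z ∂(gI κ) = 1)
    (hql : Integrable (fun z => q z * Real.log (q z)) (gI κ)) {K l S : ℝ}
    (hK : ∫ z, q z * Real.log (q z) ∂(gI κ) ≤ K) (hl : 0 < l)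
    (hm : ∫ z, Real.exp (l * (uu x (1 - (s + τ)) F (√(1 - (s + τ)) • z) -
      ∫ w, uu x (1 - (s + τ)) F (√(1 - (s + τ)) • w) ∂(gI κ))) ∂(gI κ) ≤ 7 / 2)
    (hS : 0 < S)
    (hV : Var[fun z => V0 τ x s F (√(1 - (s + τ)) • z); gI κ] ≤ S ^ 2)
    (hconc : s * DD x (s + τ) F ≤ (s + τ) * DD x s F) :
    (x - y) / 2 * (τ * ∫ z, q z * S2 y τ x s F D (√(1 - (s + τ)) • z) ∂(gI κ)) ≤
      τ / s * DD x s F + (K + 3 / 2) / l + 12 * S * (K + 3 / 2) := by
  have hx := hy.trans_le hyx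
  have e2 := EG.smul' (eg_V2 h hx hx τ s) (√(1 - (s + τ)))
  have e0 := EG.smul' (eg_V0 h hx τ s) (√(1 - (s + τ)))
  have hsum : ∀ z, V2 x τ x s F z = uu x (1 - (s + τ)) F z := V2_self h hx hτ hs.le
  have hUc := c11_uu h hx (1 - (s + τ))
  refine bracket h hc hy hyx hτ hs h1 hq hq0 ?_ ?_ hconc
  · refine transfer_up e2 hq hq0 hq1 hql hK hl ?_ ?_
    · simp_rw [hsum]
      have i1 : EG fun z : κ → ℝ => Real.exp (l * uu x (1 - (s + τ)) F (√(1 - (s + τ)) • z)) :=
        EG.smul' (hUc.eg_exp l) _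
      have i2 := (i1.const_mul (Real.exp (-(l * ∫ w, uu x (1 - (s + τ)) F
        (√(1 - (s + τ)) • w) ∂(gI κ))))).integrable
      refine i2.congr (Filter.Eventually.of_forall fun z => ?_)
      simp only
      rw [← Real.exp_add]
      congr 1
      ring
    · simp_rw [hsum]
      exact hm
  · refine transfer_low e0 ?_ (Cv.smulArg (cv_V0 h hc hx τ s) _) hq hq0 hq1 hql hK hS hV
    have hm0 : Measurable (V0 τ x s F) := (eg_V0 h hx τ s).meas
    exact hm0.comp (by fun_prop)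

end gen

end Vale.Agent.P146.H376
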