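import Vale.Agent.P146.H376.UPaN
import Vale.Agent.P146.H767.SaM
import Vale.Agent.P146.H773.ConcN

/-!
The row `upa` from the upper tail bound `UpM`.
-/

open MeasureTheory ProbabilityTheory Filter Topology

namespace Vale.Agent.P146.H376

open Vale.Agent.P157.Lv Vale.Agent.P146.H425 Vale.Agent.P146.R1S Vale.Agent.P146.H95.R2
  Vale.Agent.P146.H432

set_option linter.unusedSectionVars false

/-- the bracket for all base densities at most `n^Q` -/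
theorem brN {β a0 a e d w c : ℝ} (hβ : 0 < β) (hU : H695.UpM β a0) (haa : a0 < a)
    (hd : 0 ≤ d) (hw : 0 ≤ w) (hc0 : 0 ≤ c) (hc : 2 * (d + w) + 2 * c < 5 * e) (Q : ℝ) :
    BrN β e a w d c Q := by
  filter_upwards [H767.bracket_n hβ hU haa hd hw hc0 hc Q] with n hn
  intro x y s τ h1 h2 h3 h4 h5 h6 h7 h8 h9 q e1 e2 e3 e4
  exact hn (H773.antiN n β) x y s τ h1 h2 h3 h4 h5 h6 h7 h8.le h9 q e1 e2 e3 e4

/-- **The row `upa`.** -/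
theorem upa {β a0 a e d w ch η : ℝ} (hβ : 0 < β) (hU : H695.UpM β a0) (haa : a0 < a)
    (hd : 0 ≤ d) (hw : 0 ≤ w) (hch : 0 ≤ ch) (hc : 2 * (d + w) + 2 * ch < 5 * e)
    (he : e ≤ 1 / 6) (hη : 0 < η) :
    ∀ᶠ n : ℕ in atTop, ∀ x θ s τ t0 t2 : ℝ, (n : ℝ) ^ (-(1 / 6) + e) ≤ x →
      x ≤ (n : ℝ) ^ (-a) → (n : ℝ) ^ (-w) * x ^ 2 ≤ s → (n : ℝ) ^ (-ch) * s ≤ τ →
      s + τ < 1 → 1 / 8 ≤ θ → θ < 1 → 0 ≤ t0 → t0 ≤ 1 - s - τ → 1 - s ≤ t2 → t2 ≤ 1 →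
      (n : ℝ) ^ (1 - d) * s * x ^ 3 ≤ Dn n β x s →
      ∀ (hk : 0 < β / √n) (hx : 0 < x) (hx1 : x ≤ 1),
      nR (skCS n hk hx hx1) ⟨x, θ * x, t0, 1 - s - τ, 1 - s, t2⟩ 2 ≤
        (1 + η) * (1 / (1 - θ)) * (4 * Dn n β x s / (β ^ 2 * n * s * x)) * (n : ℝ) ^ 2 *
          nA (skCS n hk hx hx1) ⟨x, θ * x, t0, 1 - s - τ, 1 - s, t2⟩ := by
  obtain ⟨c, hc1, hc2⟩ : ∃ c, ch < c ∧ 2 * (d + w) + 2 * c < 5 * e :=
    ⟨(ch + (5 * e - 2 * (d + w)) / 2) / 2, by linarith, by linarith⟩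
  exact upa_n hβ hη hc1 (by linarith) (brN hβ hU haa hd hw (by linarith) hc2 4)

end Vale.Agent.P146.H376
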