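import Vale.Agent.P146.H376.UPa

/-!
The row `upa`: the upper bracket of the layer under the window, in the numbers of the two-layer
law, for large `n`.
-/

open MeasureTheory ProbabilityTheory Filter Topology

namespace Vale.Agent.P146.H376

open Vale.Agent.P157.Lv Vale.Agent.P146.H425 Vale.Agent.P146.H325 Vale.Agent.P146.H332
  Vale.Agent.P146.H712 Vale.Agent.P146.H816 Vale.Agent.P146.R1 Vale.Agent.P146.R1C Matrix
  Vale.Agent.P146.R1S Vale.Agent.P146.H693 Vale.Agent.P146.H767 Vale.Agent.P146.H95.R2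
  Vale.Agent.P146.H432
open Vale.Agent.P146.H946 (Dz)

set_option linter.unusedSectionVars false

/-- The bracket for all base densities at most `n^Q`. -/
def BrN (β e a w d c Q : ℝ) : Prop :=
  ∀ᶠ n : ℕ in atTop, ∀ x y s τ : ℝ, (n : ℝ) ^ (-(1 / 6) + e) ≤ x → x ≤ (n : ℝ) ^ (-a) →
    x ≤ 1 → (n : ℝ) ^ (-w) * x ^ 2 ≤ s → 0 ≤ τ → s + τ ≤ 1 → x / 8 ≤ y → y < x →
    (n : ℝ) ^ (1 - d) * s * x ^ 3 ≤ Dn n β x s →
    ∀ q : (Pair n → ℝ) → ℝ, EG q → (∀ z, 0 ≤ q z) → ∫ z, q z ∂(gI (Pair n)) = 1 →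
      (∀ z, q z ≤ (n : ℝ) ^ Q) →
      (x - y) / 2 * (τ * ∫ z, q z * S2 y τ x s (lz (β / √n) (SkS (n := n))) (Dz (β / √n))
        (√(1 - (s + τ)) • z) ∂(gI (Pair n))) ≤ τ / s * Dn n β x s + (n : ℝ) ^ (-c) * Dn n β x s

/-- the fixed `n` form of the row -/
theorem upa_fix {n : ℕ} (hn : 0 < n) {β x θ s τ t0 t2 ε : ℝ} (hβ : 0 < β) (hk : 0 < β / √n)
    (hx : 0 < x) (hx1 : x ≤ 1) (hθ0 : 0 < θ) (hθ1 : θ < 1) (hs : 0 < s) (hτ : 0 < τ)
    (h1 : s + τ < 1) (h0 : 0 ≤ t0) (ht0 : t0 ≤ 1 - s - τ) (h2 : 1 - s ≤ t2) (h3 : t2 ≤ 1)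
    (hb : ∀ q : (Pair n → ℝ) → ℝ, EG q → (∀ z, 0 ≤ q z) → ∫ z, q z ∂(gI (Pair n)) = 1 →
      (∀ z, q z ≤ (n : ℝ) ^ (4 : ℝ)) →
      (x - θ * x) / 2 * (τ * ∫ z, q z * S2 (θ * x) τ x s (lz (β / √n) (SkS (n := n)))
        (Dz (β / √n)) (√(1 - (s + τ)) • z) ∂(gI (Pair n))) ≤
          τ / s * Dn n β x s + ε * Dn n β x s) :
    nR (skCS n hk hx hx1) ⟨x, θ * x, t0, 1 - s - τ, 1 - s, t2⟩ 2 ≤
      (n + (1 + ε * (s / τ)) * (1 / (1 - θ)) * (4 * Dn n β x s / (β ^ 2 * n * s * x)) *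
        (n : ℝ) ^ 2) * nA (skCS n hk hx hx1) ⟨x, θ * x, t0, 1 - s - τ, 1 - s, t2⟩ := by
  have hn' : (0 : ℝ) < n := Nat.cast_pos.2 hn
  have key := nR_le (skCS n hk hx hx1) (y := θ * x) (t0 := t0) (ta := 1 - s - τ) (tw := 1 - s)
    (t2 := t2) (s := s) (τ := τ) (E := τ / s * Dn n β x s + ε * Dn n β x s) hn rfl (by ring) hτ
    (by positivity) (by nlinarith) h2 h3 h0 ht0 (by linarith) (fun q e1 e2 e3 e4 => by
      have h4 := hb q e1 e2 e3 (fun z => by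
        have := e4 z
        rw [show ((4 : ℕ) : ℕ) = 4 from rfl] at this
        have e5 : (n : ℝ) ^ (4 : ℝ) = (n : ℝ) ^ 4 := by
          rw [← Real.rpow_natCast]; norm_num
        rw [e5]
        exact this)
      have e6 : √(1 - s - τ) = √(1 - (s + τ)) := by congr 1; ring
      rw [e6]
      exact h4)
  refine key.trans (mul_le_mul_of_nonneg_right (le_of_eq ?_) ?_)
  · have hk2 : (β / √n) ^ 2 = β ^ 2 / n := by rw [div_pow, Real.sq_sqrt hn'.le]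
    rw [hk2]
    have h5 : (1 - θ) ≠ 0 := by linarith
    have h6 : x - θ * x = (1 - θ) * x := by ring
    rw [h6]
    field_simp
  · exact (Nat.cast_nonneg n).trans (n_le_nA (skCS n hk hx hx1) (by positivity))

/-- **The row `upa`**: `E^W |C_a|² ≤ (1 + η) (1 / (1 - θ)) (4 D / (β² n s x)) n²`. -/
theorem upa_n {β e a w d c ch η : ℝ} (hβ : 0 < β) (hη : 0 < η) (hch : ch < c)
    (hd : d < 2 / 3 + 2 * e) (hB : BrN β e a w d c 4) :
    ∀ᶠ n : ℕ in atTop, ∀ x θ s τ t0 t2 : ℝ, (n : ℝ) ^ (-(1 / 6) + e) ≤ x →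
      x ≤ (n : ℝ) ^ (-a) → (n : ℝ) ^ (-w) * x ^ 2 ≤ s → (n : ℝ) ^ (-ch) * s ≤ τ →
      s + τ < 1 → 1 / 8 ≤ θ → θ < 1 → 0 ≤ t0 → t0 ≤ 1 - s - τ → 1 - s ≤ t2 → t2 ≤ 1 →
      (n : ℝ) ^ (1 - d) * s * x ^ 3 ≤ Dn n β x s →
      ∀ (hk : 0 < β / √n) (hx : 0 < x) (hx1 : x ≤ 1),
      nR (skCS n hk hx hx1) ⟨x, θ * x, t0, 1 - s - τ, 1 - s, t2⟩ 2 ≤
        (1 + η) * (1 / (1 - θ)) * (4 * Dn n β x s / (β ^ 2 * n * s * x)) * (n : ℝ) ^ 2 *
          nA (skCS n hk hx hx1) ⟨x, θ * x, t0, 1 - s - τ, 1 - s, t2⟩ := by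
  have l1 : Tendsto (fun n : ℕ => (n : ℝ) ^ (-(c - ch))) atTop (𝓝 0) :=
    (tendsto_rpow_neg_atTop (by linarith)).comp tendsto_natCast_atTop_atTop
  have l2 : Tendsto (fun n : ℕ => (n : ℝ) ^ (2 / 3 + 2 * e - d)) atTop atTop :=
    (tendsto_rpow_atTop (by linarith)).comp tendsto_natCast_atTop_atTop
  filter_upwards [hB, l1.eventually (gt_mem_nhds (by positivity : (0 : ℝ) < η / 2)),
    l2.eventually_ge_atTop (β ^ 2 / (2 * η)), eventually_gt_atTop 0] with n hb h1 h2 hn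
  intro x θ s τ t0 t2 hlo hup hs hτ h3 hθ0 hθ1 h0 ht0 h4 h5 hD hk hx hx1
  have hn' : (0 : ℝ) < n := Nat.cast_pos.2 hn
  have hs0 : 0 < s := lt_of_lt_of_le (by positivity) hs
  have hτ0 : 0 < τ := lt_of_lt_of_le (by positivity) hτ
  have hD0 : 0 < Dn n β x s := lt_of_lt_of_le (by positivity) hD
  have key := upa_fix hn (t0 := t0) (t2 := t2) (ε := (n : ℝ) ^ (-c)) hβ hk hx hx1
    (by linarith : 0 < θ) hθ1 hs0 hτ0 h3 h0 ht0 h4 h5 fun q e1 e2 e3 e4 =>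
      hb x (θ * x) s τ hlo hup hx1 hs hτ0.le h3.le (by nlinarith) (by nlinarith) hD q e1 e2 e3 e4
  refine key.trans (mul_le_mul_of_nonneg_right ?_
    ((Nat.cast_nonneg n).trans (n_le_nA (skCS n hk hx hx1) (by nlinarith))))
  set Z : ℝ := 1 / (1 - θ) * (4 * Dn n β x s / (β ^ 2 * n * s * x)) * (n : ℝ) ^ 2 with hZ
  have hθ2 : 0 < 1 - θ := by linarith
  have hZ0 : 0 ≤ Z := by rw [hZ]; positivity
  have a1 : (n : ℝ) ^ (-c) * (s / τ) ≤ η / 2 := by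
    have a2 : s / τ ≤ (n : ℝ) ^ ch := by
      rw [div_le_iff₀ hτ0]
      have := mul_le_mul_of_nonneg_left hτ (by positivity : (0 : ℝ) ≤ (n : ℝ) ^ ch)
      rwa [← mul_assoc, ← Real.rpow_add hn', add_neg_cancel, Real.rpow_zero, one_mul] at this
    have a3 := mul_le_mul_of_nonneg_left a2 (by positivity : (0 : ℝ) ≤ (n : ℝ) ^ (-c))
    rw [← Real.rpow_add hn'] at a3
    have a4 : -c + ch = -(c - ch) := by ring
    rw [a4] at a3
    linarith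
  have a5 : (n : ℝ) ≤ η / 2 * Z := by
    have b1 : (n : ℝ) ^ (-(1 / 3) + 2 * e) ≤ x ^ 2 := by
      have := pow_le_pow_left₀ (by positivity) hlo 2
      rwa [← Real.rpow_natCast, ← Real.rpow_mul hn'.le, show (-(1 / 6) + e) * ((2 : ℕ) : ℝ) =
        -(1 / 3) + 2 * e by push_cast; ring] at this
    have b2 : (n : ℝ) ^ (2 / 3 + 2 * e - d) ≤ (n : ℝ) ^ (1 - d) * x ^ 2 := by
      have := mul_le_mul_of_nonneg_left b1 (by positivity : (0 : ℝ) ≤ (n : ℝ) ^ (1 - d))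
      rwa [← Real.rpow_add hn', show 1 - d + (-(1 / 3) + 2 * e) = 2 / 3 + 2 * e - d by ring]
        at this
    have b3 : β ^ 2 / (2 * η) ≤ (n : ℝ) ^ (1 - d) * x ^ 2 := h2.trans b2
    have b4 : (n : ℝ) ^ (1 - d) * x ^ 2 ≤ Dn n β x s / (s * x) := by
      rw [le_div_iff₀ (by positivity)]
      calc _ = (n : ℝ) ^ (1 - d) * s * x ^ 3 := by ring
        _ ≤ _ := hD
    have b5 : (1 : ℝ) ≤ 1 / (1 - θ) := by
      rw [le_div_iff₀ hθ2]; linarith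
    have b6 : β ^ 2 ≤ 2 * η * (Dn n β x s / (s * x)) := by
      have := b3.trans b4
      rw [div_le_iff₀ (by positivity)] at this
      linarith
    have b7 : Z = 1 / (1 - θ) * (4 * n / β ^ 2 * (Dn n β x s / (s * x))) := by
      rw [hZ]; field_simp
    have b8 : (n : ℝ) ≤ η / 2 * (4 * n / β ^ 2 * (Dn n β x s / (s * x))) := by
      have : η / 2 * (4 * n / β ^ 2 * (Dn n β x s / (s * x))) =
          n * (2 * η * (Dn n β x s / (s * x))) / β ^ 2 := by ring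
      rw [this, le_div_iff₀ (by positivity)]
      exact mul_le_mul_of_nonneg_left b6 hn'.le
    rw [b7]
    refine b8.trans (mul_le_mul_of_nonneg_left ?_ (by positivity))
    exact le_mul_of_one_le_left (by positivity) b5
  have e1 : (1 + (n : ℝ) ^ (-c) * (s / τ)) * (1 / (1 - θ)) *
      (4 * Dn n β x s / (β ^ 2 * n * s * x)) * (n : ℝ) ^ 2 =
      (1 + (n : ℝ) ^ (-c) * (s / τ)) * Z := by rw [hZ]; ring
  have e2 : (1 + η) * (1 / (1 - θ)) * (4 * Dn n β x s / (β ^ 2 * n * s * x)) * (n : ℝ) ^ 2 =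
      (1 + η) * Z := by rw [hZ]; ring
  rw [e1, e2]
  nlinarith [mul_le_mul_of_nonneg_right a1 hZ0]

end Vale.Agent.P146.H376
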